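import Vale.Agent.P344.Motif

namespace Vale.Agent.P344

open Set Matrix

section
variable {η : Type} [Fintype η] [DecidableEq η]

lemma sum_cols {O : Matrix η η Z2} (h : O * Oᵀ = 1) :
    ∑ a, vecMulVec (fun i => O i a) (fun i => O i a) = 1 := by
  rw [← h]; ext i j
  simp [Matrix.sum_apply, vecMulVec_apply, Matrix.mul_apply]

lemma rk_one : Rk (1 : Matrix η η Z2) (Fintype.card η) := by
  have := Rk.sum Finset.univ (fun a i => (1 : Matrix η η Z2) i a)
  rwa [sum_cols (by simp)] at this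

lemma rk_erase1 {O : Matrix η η Z2} (h : O * Oᵀ = 1) (a : η) :
    Rk (1 + vecMulVec (fun i => O i a) (fun i => O i a)) (Fintype.card η - 1) := by
  have := Rk.sum (Finset.univ.erase a) (fun a i => O i a)
  refine this.congr ?_ (by simp)
  rw [← sum_cols h, ← Finset.sum_erase_add _ _ (Finset.mem_univ a), add_assoc, add_self_mat,
    add_zero]

lemma rk_erase2 {O : Matrix η η Z2} (h : O * Oᵀ = 1) {a b : η} (hab : b ≠ a) :
    Rk (1 + vecMulVec (fun i => O i a) (fun i => O i a) +
      vecMulVec (fun i => O i b) (fun i => O i b)) (Fintype.card η - 2) := by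
  have := Rk.sum ((Finset.univ.erase a).erase b) (fun a i => O i a)
  have hb : b ∈ Finset.univ.erase a := by simp [hab]
  refine this.congr ?_ (by rw [Finset.card_erase_of_mem hb]; simp; omega)
  rw [← sum_cols h, ← Finset.sum_erase_add _ _ (Finset.mem_univ a),
    ← Finset.sum_erase_add _ _ hb]
  have : ∀ A B C : Matrix η η Z2, A = A + B + C + C + B := fun A B C => by
    rw [add_assoc (A + B), add_self_mat, add_zero, add_assoc, add_self_mat, add_zero]
  exact this _ _ _

def Oz (z : η → Z2) : Matrix η η Z2 := 1 + vecMulVec z z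

lemma Oz_T (z : η → Z2) : (Oz z)ᵀ = Oz z := by
  rw [Oz, transpose_add, transpose_one, (isSymm_vec z).eq]

lemma Oz_sq {z : η → Z2} (hz : z ⬝ᵥ z = 0) : Oz z * Oz z = 1 := by
  simp only [Oz, add_mul, mul_add, one_mul, mul_one, vecMulVec_mul_vecMulVec, hz, zero_smul,
    vecMulVec_zero, add_zero]
  rw [add_assoc, add_self_mat, add_zero]

lemma Oz_mulVec (z v : η → Z2) : Oz z *ᵥ v = v + (z ⬝ᵥ v) • z := by
  rw [Oz, add_mulVec, one_mulVec, vecMulVec_mulVec]; simp

lemma col_eq (O : Matrix η η Z2) (a : η) : (fun i => O i a) = O *ᵥ Pi.single a 1 := by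
  funext i; simp

lemma self_dot {u : η → Z2} {a : η} (hu : u ⬝ᵥ u = 1) (ha : u a = 0) :
    (Pi.single a 1 + u) ⬝ᵥ (Pi.single a 1 + u) = 0 := by
  simp [add_dotProduct, dotProduct_add, hu, ha]

lemma Oz_single {u : η → Z2} {a : η} (ha : u a = 0) :
    Oz (Pi.single a 1 + u) *ᵥ Pi.single a 1 = u := by
  rw [Oz_mulVec]; simp [ha, ← add_assoc]

lemma rk_u {u : η → Z2} {a : η} (hu : u ⬝ᵥ u = 1) (ha : u a = 0) :
    Rk (1 + vecMulVec u u) (Fintype.card η - 1) := by
  have := rk_erase1 (O := Oz (Pi.single a 1 + u)) (by rw [Oz_T, Oz_sq (self_dot hu ha)]) a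
  rwa [col_eq, Oz_single ha] at this

lemma rk_uv {u v : η → Z2} {a b : η} (hu : u ⬝ᵥ u = 1) (hv : v ⬝ᵥ v = 1) (huv : u ⬝ᵥ v = 0)
    (ha : u a = 0) (hab : b ≠ a) (hb : u b = 0) (hb' : v b = 0) :
    Rk (1 + vecMulVec u u + vecMulVec v v) (Fintype.card η - 2) := by
  set z := Pi.single a 1 + u with hz
  have hzz : z ⬝ᵥ z = 0 := self_dot hu ha
  set v' := Oz z *ᵥ v with hv'
  have hzv : z ⬝ᵥ v = v a := by simp [hz, add_dotProduct, huv]
  have e : v' = v + v a • z := by rw [hv', Oz_mulVec, hzv]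
  have va : v' a = 0 := by simp [e, hz, ha]
  have vb : v' b = 0 := by simp [e, hz, hb, hb', hab]
  have vv : v' ⬝ᵥ v' = 1 := by
    rw [e]
    simp [add_dotProduct, dotProduct_add, hv, hzz, hzv, dotProduct_comm v z, add_assoc]
  have hO : (Oz z * Oz (Pi.single b 1 + v')) * (Oz z * Oz (Pi.single b 1 + v'))ᵀ = 1 := by
    rw [transpose_mul, Oz_T, Oz_T, Matrix.mul_assoc, ← Matrix.mul_assoc (Oz (_ + v')),
      Oz_sq (self_dot vv vb), Matrix.one_mul, Oz_sq hzz]
  have := rk_erase2 hO hab
  rw [col_eq, col_eq, ← mulVec_mulVec, ← mulVec_mulVec, Oz_single vb, Oz_mulVec _ (Pi.single a 1),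
    hv', mulVec_mulVec, Oz_sq hzz, one_mulVec] at this
  have h0 : (Pi.single b 1 + Oz z *ᵥ v) ⬝ᵥ Pi.single a 1 = 0 := by
    rw [← hv']; simp [va, hab.symm]
  rwa [h0, zero_smul, add_zero, Oz_single ha] at this

end

abbrev Trip := {S : Finset (Fin 30) // S.card = 3}

def ind (S : Trip) : Fin 30 → Z2 := fun a => if a ∈ S.1 then 1 else 0

lemma ind_dot (S T : Trip) : ind S ⬝ᵥ ind T = ((S.1 ∩ T.1).card : Z2) := by
  simp only [ind, dotProduct, ite_zero_mul_ite_zero, mul_one, ← Finset.mem_inter]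
  rw [Finset.sum_boole, Finset.filter_mem_eq_inter, Finset.univ_inter]

lemma ind_self (S : Trip) : ind S ⬝ᵥ ind S = 1 := by
  rw [ind_dot, Finset.inter_self, S.2]; rfl

lemma exists_notMem (s : Finset (Fin 30)) (h : s.card < 30) : ∃ a, a ∉ s := by
  by_contra hh
  push Not at hh
  have : s = Finset.univ := Finset.eq_univ_iff_forall.2 hh
  simp [this] at h

noncomputable def design : Design Trip (Fin 30) where
  u := ind
  γ S i := (if i ∈ S.1 then 1 / 2 else 0) - 1 / 6
  b i T := if i ∈ T.1 then 1 else 0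
  hid S T h := by
    have e : ∑ i : Fin 30, ((if i ∈ S.1 then (1 / 2 : ℂ) else 0) - 1 / 6) *
        (if i ∈ T.1 then 1 else 0) = (((S.1 ∩ T.1).card : ℂ) - 1) / 2 := by
      have h1 : ∀ i : Fin 30, ((if i ∈ S.1 then (1 / 2 : ℂ) else 0) - 1 / 6) *
        (if i ∈ T.1 then 1 else 0) = 1 / 2 * (if i ∈ S.1 ∩ T.1 then 1 else 0)
          - 1 / 6 * (if i ∈ T.1 then 1 else 0) := by
        intro i
        by_cases h1 : i ∈ S.1 <;> by_cases h2 : i ∈ T.1 <;> simp [h1, h2]
      simp only [h1, Finset.sum_sub_distrib, ← Finset.mul_sum, Finset.sum_boole,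
        Finset.filter_mem_eq_inter, Finset.univ_inter, T.2]
      push_cast; ring
    rw [e]
    rw [ind_dot] at h
    have hle : (S.1 ∩ T.1).card ≤ 3 := (Finset.card_le_card Finset.inter_subset_left).trans S.2.le
    split_ifs with hST
    · subst hST; rw [Finset.inter_self, S.2]; norm_num
    · have h3 : (S.1 ∩ T.1).card ≠ 3 := by
        intro h3
        apply hST
        have h4 := Finset.eq_of_subset_of_card_le (Finset.inter_subset_left (s₁ := S.1) (s₂ := T.1))
          (by rw [h3, S.2])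
        have h5 := Finset.eq_of_subset_of_card_le
          (Finset.inter_subset_right (s₁ := S.1) (s₂ := T.1)) (by rw [h3, T.2])
        exact Subtype.ext (h4.symm.trans h5)
      generalize (S.1 ∩ T.1).card = k at *
      interval_cases k
      · exact absurd rfl h
      · simp
      · exact absurd rfl h
      · exact absurd rfl h3
  rk0 := rk_one
  rk1 S := by
    obtain ⟨a, ha⟩ := exists_notMem S.1 (by rw [S.2]; norm_num)
    exact rk_u (ind_self S) (a := a) (by simp [ind, ha])
  rk2 S T h := by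
    obtain ⟨a, ha⟩ := exists_notMem S.1 (by rw [S.2]; norm_num)
    obtain ⟨b, hb⟩ := exists_notMem (insert a (S.1 ∪ T.1)) (by
      have := Finset.card_insert_le a (S.1 ∪ T.1)
      have := Finset.card_union_le S.1 T.1
      have := S.2
      have := T.2
      omega)
    simp only [Finset.mem_insert, Finset.mem_union, not_or] at hb
    exact rk_uv (ind_self S) (ind_self T) h (a := a) (b := b) (by simp [ind, ha]) hb.1
      (by simp [ind, hb.2.1]) (by simp [ind, hb.2.2])

lemma card_Trip : Fintype.card Trip = 4060 := by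
  rw [Fintype.card_finset_len]; rfl

end Vale.Agent.P344
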