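import Vale.Agent.P344.Defs

namespace Vale.Agent.P344

open Set Matrix

section
variable {V : Type} [AddCommGroup V] [Module ℂ V]

inductive Reach (S : Set V) : ℕ → Set V → Prop
  | base : Reach S 0 (insert 0 S)
  | add {c : ℕ} {A : Set V} {u v : V} : Reach S c A → u ∈ A → v ∈ A →
      Reach S (c + 1) (insert (u + v) A)
  | sub {c : ℕ} {A : Set V} {u v : V} : Reach S c A → u ∈ A → v ∈ A →
      Reach S (c + 1) (insert (u - v) A)
  | smul {c : ℕ} {A : Set V} {u : V} (a : ℂ) : Reach S c A → u ∈ A →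
      Reach S (c + 1) (insert (a • u) A)

lemma Reach.subset {S A : Set V} {c : ℕ} (h : Reach S c A) : insert 0 S ⊆ A := by
  induction h with
  | base => exact Subset.rfl
  | add _ _ _ ih => exact ih.trans (subset_insert _ _)
  | sub _ _ _ ih => exact ih.trans (subset_insert _ _)
  | smul _ _ _ ih => exact ih.trans (subset_insert _ _)

lemma Reach.trans {S A B A' : Set V} {c c' : ℕ} (h : Reach S c A) (h' : Reach A' c' B)
    (hA : A' ⊆ A) : ∃ B', Reach S (c + c') B' ∧ B ⊆ B' ∧ A ⊆ B' := by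
  induction h' with
  | base =>
    refine ⟨A, h, ?_, Subset.rfl⟩
    exact insert_subset (h.subset (mem_insert _ _)) hA
  | add _ hu hv ih =>
    obtain ⟨B', h1, h2, h3⟩ := ih
    exact ⟨_, h1.add (h2 hu) (h2 hv), insert_subset_insert h2, h3.trans (subset_insert _ _)⟩
  | sub _ hu hv ih =>
    obtain ⟨B', h1, h2, h3⟩ := ih
    exact ⟨_, h1.sub (h2 hu) (h2 hv), insert_subset_insert h2, h3.trans (subset_insert _ _)⟩
  | smul a _ hu ih =>
    obtain ⟨B', h1, h2, h3⟩ := ih
    exact ⟨_, h1.smul a (h2 hu), insert_subset_insert h2, h3.trans (subset_insert _ _)⟩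

/-- From the values `S` (and `0`) one can compute all values of `T` with at most `c` gates. -/
def Comp (S : Set V) (c : ℝ) (T : Set V) : Prop :=
  ∃ (k : ℕ) (A : Set V), (k : ℝ) ≤ c ∧ Reach S k A ∧ T ⊆ A

lemma Comp.nonneg {S T : Set V} {c : ℝ} (h : Comp S c T) : 0 ≤ c := by
  obtain ⟨k, A, hk, -, -⟩ := h
  exact (Nat.cast_nonneg k).trans hk

lemma Comp.of_subset {S T : Set V} (h : T ⊆ insert 0 S) : Comp S 0 T :=
  ⟨0, _, by simp, Reach.base, h⟩

lemma Comp.refl (S : Set V) : Comp S 0 S := Comp.of_subset (subset_insert _ _)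

lemma Comp.mono {S T S' T' : Set V} {c c' : ℝ} (h : Comp S c T) (hS : S ⊆ insert 0 S')
    (hc : c ≤ c') (hT : T' ⊆ T) : Comp S' c' T' := by
  obtain ⟨k, A, hk, hr, hA⟩ := h
  obtain ⟨B, h1, h2, -⟩ := (Reach.base (S := S')).trans hr hS
  exact ⟨0 + k, B, by simpa using hk.trans hc, h1, hT.trans (hA.trans h2)⟩

lemma Comp.mono_cost {S T : Set V} {c c' : ℝ} (h : Comp S c T) (hc : c ≤ c') : Comp S c' T :=
  h.mono (subset_insert _ _) hc Subset.rfl

lemma Comp.mono_left {S T S' : Set V} {c : ℝ} (h : Comp S c T) (hS : S ⊆ S') : Comp S' c T :=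
  h.mono (hS.trans (subset_insert _ _)) le_rfl Subset.rfl

lemma Comp.mono_right {S T T' : Set V} {c : ℝ} (h : Comp S c T) (hT : T' ⊆ T) : Comp S c T' :=
  h.mono (subset_insert _ _) le_rfl hT

lemma Comp.trans_union {S T U : Set V} {c c' : ℝ} (h : Comp S c T) (h' : Comp (S ∪ T) c' U) :
    Comp S (c + c') (T ∪ U) := by
  obtain ⟨k, A, hk, hr, hA⟩ := h
  obtain ⟨k', A', hk', hr', hA'⟩ := h'
  obtain ⟨B, h1, h2, h3⟩ := hr.trans hr'
    (union_subset ((subset_insert _ _).trans hr.subset) hA)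
  exact ⟨k + k', B, by push_cast; linarith, h1, union_subset (hA.trans h3) (hA'.trans h2)⟩

lemma Comp.trans' {S T U : Set V} {c c' : ℝ} (h : Comp S c T) (h' : Comp (S ∪ T) c' U) :
    Comp S (c + c') U := (h.trans_union h').mono_right subset_union_right

lemma Comp.trans {S T U : Set V} {c c' : ℝ} (h : Comp S c T) (h' : Comp T c' U) :
    Comp S (c + c') U := h.trans' (h'.mono_left subset_union_right)

lemma Comp.union {S T U : Set V} {c c' : ℝ} (h : Comp S c T) (h' : Comp S c' U) :
    Comp S (c + c') (T ∪ U) := h.trans_union (h'.mono_left subset_union_left)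

lemma Comp.with_self {S T : Set V} {c : ℝ} (h : Comp S c T) : Comp S c (S ∪ T) := by
  simpa using (Comp.refl S).union h

lemma Comp.biUnion {ι : Type*} {S : Set V} (s : Finset ι) {T : ι → Set V} {c : ι → ℝ}
    (h : ∀ i ∈ s, Comp S (c i) (T i)) : Comp S (∑ i ∈ s, c i) (⋃ i ∈ s, T i) := by
  classical
  induction s using Finset.induction_on with
  | empty => simpa using Comp.of_subset (empty_subset _)
  | insert a s ha ih =>
    rw [Finset.sum_insert ha, Finset.set_biUnion_insert]
    exact (h a (Finset.mem_insert_self _ _)).union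
      (ih fun i hi => h i (Finset.mem_insert_of_mem hi))

lemma Comp.iUnion {ι : Type*} [Fintype ι] {S : Set V} {T : ι → Set V} {c : ι → ℝ}
    (h : ∀ i, Comp S (c i) (T i)) : Comp S (∑ i, c i) (⋃ i, T i) := by
  simpa using Comp.biUnion Finset.univ (fun i _ => h i)

lemma Comp.add_one {S : Set V} {u v : V} (hu : u ∈ insert 0 S) (hv : v ∈ insert 0 S) :
    Comp S 1 {u + v} :=
  ⟨1, _, by simp, Reach.base.add hu hv, by simp⟩

lemma Comp.smul_one {S : Set V} {u : V} (a : ℂ) (hu : u ∈ insert 0 S) :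
    Comp S 1 {a • u} :=
  ⟨1, _, by simp, Reach.base.smul a hu, by simp⟩

lemma Comp.sum {ι : Type*} {S : Set V} (s : Finset ι) (a : ι → ℂ) (x : ι → V)
    (hx : ∀ i ∈ s, x i ∈ S) : Comp S (2 * s.card) {∑ i ∈ s, a i • x i} := by
  classical
  induction s using Finset.induction_on with
  | empty => simpa using Comp.of_subset (by simp)
  | insert b s hb ih =>
    rw [Finset.sum_insert hb, Finset.card_insert_of_notMem hb]
    have h1 := ih fun i hi => hx i (Finset.mem_insert_of_mem hi)
    have h2 : Comp S 1 {a b • x b} :=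
      Comp.smul_one _ (mem_insert_of_mem _ (hx b (Finset.mem_insert_self _ _)))
    have h3 := (h1.union h2).trans' (U := {a b • x b + ∑ i ∈ s, a i • x i})
      (Comp.add_one (by simp) (by simp))
    exact h3.mono_cost (by push_cast; linarith)

end

/-- action of a matrix on a family of vectors -/
def act {ι κ V : Type*} [Fintype ι] [AddCommGroup V] [Module ℂ V] (A : Matrix κ ι ℂ)
    (x : ι → V) : κ → V := fun k => ∑ j, A k j • x j

section
variable {ι κ ν V : Type*} [Fintype ι] [Fintype κ] [AddCommGroup V] [Module ℂ V]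

lemma act_mul (A : Matrix ν κ ℂ) (B : Matrix κ ι ℂ) (x : ι → V) :
    act (A * B) x = act A (act B x) := by
  funext k
  simp only [act, Matrix.mul_apply, Finset.sum_smul, Finset.smul_sum, mul_smul]
  exact Finset.sum_comm

lemma act_one [DecidableEq ι] (x : ι → V) : act (1 : Matrix ι ι ℂ) x = x := by
  funext k
  simp [act, Matrix.one_apply, ite_smul]

omit [Fintype κ] in
lemma act_add (A : Matrix κ ι ℂ) (x y : ι → V) : act A (x + y) = act A x + act A y := by
  funext k; simp [act, Finset.sum_add_distrib]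

omit [Fintype κ] in
lemma act_smul (A : Matrix κ ι ℂ) (a : ℂ) (x : ι → V) : act A (a • x) = a • act A x := by
  funext k; simp [act, Finset.smul_sum, smul_comm a]

/-- `act A` as a linear map -/
def actL (A : Matrix κ ι ℂ) : (ι → V) →ₗ[ℂ] (κ → V) where
  toFun := act A
  map_add' := act_add A
  map_smul' := act_smul A

end

/-- The matrix `A` has a linear circuit with at most `c` gates. -/
def MC {ι κ : Type*} [Fintype ι] (A : Matrix κ ι ℂ) (c : ℝ) : Prop :=
  ∀ (V : Type) [AddCommGroup V] [Module ℂ V] (x : ι → V), Comp (range x) c (range (act A x))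

section
variable {ι κ ν : Type*} [Fintype ι] [Fintype κ]

omit [Fintype κ] in
lemma MC.mono {A : Matrix κ ι ℂ} {c c' : ℝ} (h : MC A c) (hc : c ≤ c') : MC A c' :=
  fun V _ _ x => (h V x).mono_cost hc

omit [Fintype κ] in
lemma MC.nonneg {A : Matrix κ ι ℂ} {c : ℝ} (h : MC A c) : 0 ≤ c :=
  (h ℂ (fun _ => 0)).nonneg

lemma MC.mul {A : Matrix ν κ ℂ} {B : Matrix κ ι ℂ} {c c' : ℝ} (h : MC A c) (h' : MC B c') :
    MC (A * B) (c + c') := by
  intro V _ _ x
  rw [act_mul, add_comm]
  exact (h' V x).trans (h V _)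

lemma MC.one [DecidableEq ι] : MC (1 : Matrix ι ι ℂ) 0 := by
  intro V _ _ x
  rw [act_one]; exact Comp.refl _

lemma MC.triv (A : Matrix κ ι ℂ) : MC A (Fintype.card κ * (2 * Fintype.card ι)) := by
  intro V _ _ x
  have := Comp.iUnion (S := range x) (T := fun k => {act A x k})
    (c := fun _ => 2 * (Fintype.card ι : ℝ))
    (fun k => Comp.sum Finset.univ (A k) x (fun i _ => mem_range_self i))
  simp only [Finset.sum_const, Finset.card_univ, nsmul_eq_mul] at this
  refine this.mono_right ?_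
  rintro _ ⟨k, rfl⟩
  exact mem_iUnion.2 ⟨k, rfl⟩

omit [Fintype κ] in
lemma MC.submatrix {κ' ι' : Type*} [Fintype ι'] {A : Matrix κ ι ℂ} {c : ℝ} (h : MC A c)
    (f : κ' → κ) (g : ι' → ι) (hg : Function.Injective g) : MC (A.submatrix f g) c := by
  intro V _ _ x
  classical
  have h1 := h V (Function.extend g x 0)
  refine h1.mono ?_ le_rfl ?_
  · rintro _ ⟨i, rfl⟩
    by_cases hi : ∃ a, g a = i
    · obtain ⟨a, rfl⟩ := hi
      rw [hg.extend_apply]; exact mem_insert_of_mem _ (mem_range_self a)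
    · rw [Function.extend_apply' _ _ _ hi]; exact mem_insert _ _
  · rintro _ ⟨k, rfl⟩
    refine ⟨f k, ?_⟩
    simp only [act, submatrix_apply]
    symm
    apply Finset.sum_of_injOn g hg.injOn (by simp)
    · intro i _ hi
      rw [Function.extend_apply' _ _ _ (by simpa using hi)]; simp
    · intro i _
      rw [hg.extend_apply]

/-- a matrix with one entry per row -/
lemma MC.of_single [DecidableEq ι] {A : Matrix κ ι ℂ} (d : κ → ℂ) (π : κ → ι)
    (hA : ∀ k j, A k j = if π k = j then d k else 0) : MC A (Fintype.card κ) := by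
  intro V _ _ x
  have := Comp.iUnion (S := range x) (T := fun k => {d k • x (π k)})
    (c := fun _ => (1 : ℝ))
    (fun k => Comp.smul_one _ (mem_insert_of_mem _ (mem_range_self _)))
  simp only [Finset.sum_const, Finset.card_univ, nsmul_eq_mul, mul_one] at this
  refine this.mono_right ?_
  rintro _ ⟨k, rfl⟩
  refine mem_iUnion.2 ⟨k, ?_⟩
  simp [act, hA, ite_smul]

end

/-! Translation to gate lists. -/

lemma run_length (l : List ℂ) (gs : List Gate) : (run l gs).length = l.length + gs.length := by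
  induction gs generalizing l with
  | nil => simp [run]
  | cons g gs ih => simp [run, ih]; omega

lemma run_append (l : List ℂ) (gs : List Gate) (g : Gate) :
    run l (gs ++ [g]) = run l gs ++ [g.val (run l gs)] := by
  induction gs generalizing l with
  | nil => simp [run]
  | cons g' gs ih => simp [run, ih]

lemma reach_gates {n : ℕ} {c : ℕ} {A : Set ((Fin n → ℂ) → ℂ)}
    (h : Reach (range fun (j : Fin n) (x : Fin n → ℂ) => x j) c A) :
    ∃ gs : List Gate, gs.length = c ∧ (∀ t : Fin gs.length, (gs.get t).RefsBelow (n + 1 + t)) ∧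
      ∀ f ∈ A, ∃ p < n + 1 + c, ∀ x, (run (0 :: List.ofFn x) gs).getD p 0 = f x := by
  have step : ∀ (c : ℕ) (A : Set ((Fin n → ℂ) → ℂ)) (gs : List Gate) (g : Gate)
      (f : (Fin n → ℂ) → ℂ), gs.length = c →
      (∀ t : Fin gs.length, (gs.get t).RefsBelow (n + 1 + t)) →
      (∀ f ∈ A, ∃ p < n + 1 + c, ∀ x, (run (0 :: List.ofFn x) gs).getD p 0 = f x) →
      g.RefsBelow (n + 1 + c) → (∀ x, g.val (run (0 :: List.ofFn x) gs) = f x) →
      ∃ gs : List Gate, gs.length = c + 1 ∧
        (∀ t : Fin gs.length, (gs.get t).RefsBelow (n + 1 + t)) ∧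
        ∀ f' ∈ insert f A, ∃ p < n + 1 + (c + 1), ∀ x,
          (run (0 :: List.ofFn x) gs).getD p 0 = f' x := by
    intro c A gs g f hl hr hA hg hf
    refine ⟨gs ++ [g], by simp [hl], ?_, ?_⟩
    · intro t
      obtain ⟨t, ht⟩ := t
      simp only [List.get_eq_getElem]
      by_cases h1 : t < gs.length
      · rw [List.getElem_append_left h1]; exact hr ⟨t, h1⟩
      · have : t = gs.length := by simp at ht; omega
        subst this
        simp only [List.getElem_append_right le_rfl, Nat.sub_self, List.getElem_cons_zero]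
        rw [hl]; exact hg
    · have hlen : ∀ x : Fin n → ℂ, (run (0 :: List.ofFn x) gs).length = n + 1 + c := by
        intro x; rw [run_length, hl]; simp
      rintro f' (rfl | hf')
      · refine ⟨n + 1 + c, by omega, fun x => ?_⟩
        rw [run_append, List.getD_append_right _ _ _ _ (hlen x).le, hlen, Nat.sub_self]
        simpa using hf x
      · obtain ⟨p, hp, hp'⟩ := hA f' hf'
        refine ⟨p, by omega, fun x => ?_⟩
        rw [run_append, List.getD_append _ _ _ _ (by rw [hlen]; exact hp)]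
        exact hp' x
  induction h with
  | base =>
    refine ⟨[], rfl, fun t => t.elim0, ?_⟩
    rintro f (rfl | ⟨j, rfl⟩)
    · exact ⟨0, by omega, fun x => by simp [run]⟩
    · exact ⟨j + 1, by omega, fun x => by simp [run]⟩
  | add _ hu hv ih =>
    obtain ⟨gs, hl, hr, hA⟩ := ih
    obtain ⟨p, hp, hp'⟩ := hA _ hu
    obtain ⟨q, hq, hq'⟩ := hA _ hv
    exact step _ _ gs (.add p q) _ hl hr hA ⟨hp, hq⟩
      (fun x => by simp only [Gate.val, hp', hq', Pi.add_apply])
  | sub _ hu hv ih =>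
    obtain ⟨gs, hl, hr, hA⟩ := ih
    obtain ⟨p, hp, hp'⟩ := hA _ hu
    obtain ⟨q, hq, hq'⟩ := hA _ hv
    exact step _ _ gs (.sub p q) _ hl hr hA ⟨hp, hq⟩
      (fun x => by simp only [Gate.val, hp', hq', Pi.sub_apply])
  | smul a _ hu ih =>
    obtain ⟨gs, hl, hr, hA⟩ := ih
    obtain ⟨p, hp, hp'⟩ := hA _ hu
    exact step _ _ gs (.smul a p) _ hl hr hA hp
      (fun x => by simp only [Gate.val, hp', Pi.smul_apply, smul_eq_mul])

/-- Fourier matrix of a root `q`. -/
noncomputable def Fm (N : ℕ) (q : ℂ) : Matrix (Fin N) (Fin N) ℂ :=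
  Matrix.of fun j k => q ^ ((j : ℕ) * (k : ℕ))

lemma exists_circuit_of_MC {n : ℕ} {c : ℝ}
    (h : MC (Fm n (Complex.exp (2 * Real.pi * Complex.I / n))) c) :
    ∃ gs : List Gate, (gs.length : ℝ) ≤ c ∧ ComputesDFT n gs := by
  obtain ⟨k, A, hk, hr, hA⟩ := h ((Fin n → ℂ) → ℂ) (fun (j : Fin n) (x : Fin n → ℂ) => x j)
  obtain ⟨gs, hl, hrb, hg⟩ := reach_gates hr
  refine ⟨gs, hl ▸ hk, hrb, ?_⟩
  choose p hp hp' using fun j => hg _ (hA (mem_range_self j))
  refine ⟨fun j => ⟨p j, hl ▸ hp j⟩, fun x j => ?_⟩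
  rw [hp']
  simp [act, Fm]

lemma L_le_of_MC {n : ℕ} {c : ℝ}
    (h : MC (Fm n (Complex.exp (2 * Real.pi * Complex.I / n))) c) : (L n : ℝ) ≤ c := by
  obtain ⟨gs, h1, h2⟩ := exists_circuit_of_MC h
  have : L n ≤ gs.length := Nat.sInf_le ⟨gs, rfl, h2⟩
  exact (Nat.cast_le.2 this).trans h1

end Vale.Agent.P344
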