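import Mathlib

namespace Vale.Agent.P344

/-- A gate of a linear circuit. The natural numbers are positions in the list of values
computed so far. -/
inductive Gate : Type
  | add (i j : ℕ) : Gate
  | sub (i j : ℕ) : Gate
  | smul (c : ℂ) (i : ℕ) : Gate

/-- The value of a gate, given the list of previously computed values. -/
noncomputable def Gate.val (l : List ℂ) : Gate → ℂ
  | .add i j => l.getD i 0 + l.getD j 0
  | .sub i j => l.getD i 0 - l.getD j 0
  | .smul c i => c * l.getD i 0

/-- A gate only refers to positions below `m`. -/
def Gate.RefsBelow (m : ℕ) : Gate → Prop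
  | .add i j => i < m ∧ j < m
  | .sub i j => i < m ∧ j < m
  | .smul _ i => i < m

/-- Run the gates in order; each gate appends its value to the list of values. -/
noncomputable def run (l : List ℂ) : List Gate → List ℂ
  | [] => l
  | g :: gs => run (l ++ [g.val l]) gs

/-- `gs` is a linear circuit with inputs `0, x_0, …, x_{n-1}` (positions `0, …, n`) in which gate
number `t` refers only to earlier values, and whose designated outputs are `F_n x`. -/
def ComputesDFT (n : ℕ) (gs : List Gate) : Prop :=
  (∀ t : Fin gs.length, (gs.get t).RefsBelow (n + 1 + t)) ∧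
    ∃ out : Fin n → Fin (n + 1 + gs.length), ∀ (x : Fin n → ℂ) (j : Fin n),
      (run (0 :: List.ofFn x) gs).getD (out j) 0 =
        ∑ k : Fin n, Complex.exp (2 * Real.pi * Complex.I / n) ^ ((j : ℕ) * (k : ℕ)) * x k

/-- `L n`: the least number of gates of a linear circuit computing `F_n`. -/
noncomputable def L (n : ℕ) : ℕ :=
  sInf {m : ℕ | ∃ gs : List Gate, gs.length = m ∧ ComputesDFT n gs}

end Vale.Agent.P344
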