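import Vale.Agent.P344.Cost

namespace Vale.Agent.P344

open Set Matrix Complex

abbrev Z2 := ZMod 2

lemma Z2_cases (t : Z2) : t = 0 ∨ t = 1 := by revert t; decide

noncomputable def sg (t : Z2) : ℂ := if t = 0 then 1 else -1
noncomputable def io (t : Z2) : ℂ := if t = 0 then 1 else I
noncomputable def cc (t : Z2) : ℂ := if t = 0 then (1 + I) / 2 else (1 - I) / 2

@[simp] lemma sg_zero : sg 0 = 1 := by simp [sg]
@[simp] lemma sg_one : sg 1 = -1 := by simp [sg]
@[simp] lemma io_zero : io 0 = 1 := by simp [io]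
@[simp] lemma io_one : io 1 = I := by simp [io]
@[simp] lemma cc_zero : cc 0 = (1 + I) / 2 := by simp [cc]
@[simp] lemma cc_one : cc 1 = (1 - I) / 2 := by simp [cc]
lemma one_add_one_Z2 : (1 : Z2) + 1 = 0 := by decide
@[simp] lemma add_self_Z2 (t : Z2) : t + t = 0 := by revert t; decide

lemma sg_add (s t : Z2) : sg (s + t) = sg s * sg t := by
  rcases Z2_cases s with rfl | rfl <;> rcases Z2_cases t with rfl | rfl <;> simp

lemma sg_sum {ι : Type*} (s : Finset ι) (f : ι → Z2) : sg (∑ i ∈ s, f i) = ∏ i ∈ s, sg (f i) := by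
  classical
  induction s using Finset.induction_on with
  | empty => simp
  | insert a s ha ih => rw [Finset.sum_insert ha, Finset.prod_insert ha, sg_add, ih]

lemma sum_Z2 {M : Type*} [AddCommMonoid M] (f : Z2 → M) : ∑ t, f t = f 0 + f 1 := by
  have : (Finset.univ : Finset Z2) = {0, 1} := by decide
  rw [this, Finset.sum_pair (by decide)]

lemma neg_one_pow_eq_sg (n : ℕ) : (-1 : ℂ) ^ n = sg (n : Z2) := by
  induction n with
  | zero => simp
  | succ n ih => rw [pow_succ, ih, Nat.cast_succ, sg_add]; simp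

lemma I_pow_sq (n : ℕ) : I ^ (n ^ 2) = io (n : Z2) := by
  have h4 : I ^ 4 = 1 := I_pow_four
  rcases Nat.even_or_odd' n with ⟨k, rfl | rfl⟩
  · have : (2 * k) ^ 2 = 4 * k ^ 2 := by ring
    rw [this, pow_mul, h4, one_pow]
    have : ((2 * k : ℕ) : Z2) = 0 := by
      push_cast; rw [show (2 : Z2) = 0 from rfl, zero_mul]
    rw [this, io_zero]
  · have : (2 * k + 1) ^ 2 = 4 * (k ^ 2 + k) + 1 := by ring
    rw [this, pow_succ, pow_mul, h4, one_pow, one_mul]
    have : ((2 * k + 1 : ℕ) : Z2) = 1 := by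
      push_cast; rw [show (2 : Z2) = 0 from rfl, zero_mul, zero_add]
    rw [this, io_one]

lemma cc_sg (s : Z2) : ∑ t, cc t * sg (t * s) = io s := by
  rw [sum_Z2]
  rcases Z2_cases s with rfl | rfl <;> simp <;> ring

section
variable {κ : Type} [Fintype κ] [DecidableEq κ]

noncomputable def Hm (κ : Type) [Fintype κ] : Matrix (κ → Z2) (κ → Z2) ℂ :=
  Matrix.of fun x ξ => sg (x ⬝ᵥ ξ)

omit [Fintype κ] [DecidableEq κ] in
@[simp] lemma add_self_fun (x : κ → Z2) : x + x = 0 := by funext a; simp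

omit [Fintype κ] [DecidableEq κ] in
lemma add_eq_zero_fun (x y : κ → Z2) : x + y = 0 ↔ x = y := by
  constructor
  · intro h
    have : x + y + y = 0 + y := by rw [h]
    rwa [add_assoc, add_self_fun, add_zero, zero_add] at this
  · rintro rfl; simp

lemma Hm_mul_Hm : Hm κ * Hm κ = ((2 : ℂ) ^ Fintype.card κ) • (1 : Matrix _ _ ℂ) := by
  ext x y
  simp only [Hm, Matrix.mul_apply, Matrix.of_apply, Matrix.smul_apply, smul_eq_mul]
  have : ∀ ξ : κ → Z2, sg (x ⬝ᵥ ξ) * sg (ξ ⬝ᵥ y) = ∏ a, sg ((x a + y a) * ξ a) := by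
    intro ξ
    rw [← sg_add, ← sg_sum, dotProduct_comm ξ y, ← add_dotProduct]; rfl
  simp only [this]
  rw [← Fintype.piFinset_univ, ← Finset.prod_univ_sum (fun _ => Finset.univ)
    (fun a t => sg ((x a + y a) * t))]
  by_cases h : x = y
  · subst h; simp [sum_Z2]
  · obtain ⟨a, ha⟩ := Function.ne_iff.1 h
    rw [Matrix.one_apply_ne h, mul_zero]
    apply Finset.prod_eq_zero (Finset.mem_univ a)
    have : x a + y a = 1 := by
      revert ha; generalize x a = s; generalize y a = t; revert s t; decide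
    simp [sum_Z2, this]

noncomputable def mult (f : (κ → Z2) → ℂ) : Matrix (κ → Z2) (κ → Z2) ℂ :=
  ((2 : ℂ) ^ Fintype.card κ)⁻¹ • (Hm κ * diagonal f * Hm κ)

lemma eq_mult {M : Matrix (κ → Z2) (κ → Z2) ℂ} {f : (κ → Z2) → ℂ}
    (h : M * Hm κ = Hm κ * diagonal f) : M = mult f := by
  rw [mult, ← h, Matrix.mul_assoc, Hm_mul_Hm, Matrix.mul_smul, Matrix.mul_one, smul_smul,
    inv_mul_cancel₀ (pow_ne_zero _ two_ne_zero), one_smul]

lemma mult_Hm (f : (κ → Z2) → ℂ) : mult f * Hm κ = Hm κ * diagonal f := by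
  rw [mult, Matrix.smul_mul, Matrix.mul_assoc, Hm_mul_Hm, Matrix.mul_smul, Matrix.mul_one,
    smul_smul, inv_mul_cancel₀ (pow_ne_zero _ two_ne_zero), one_smul]

lemma mult_mul (f g : (κ → Z2) → ℂ) : mult f * mult g = mult (fun ξ => f ξ * g ξ) := by
  apply eq_mult
  rw [Matrix.mul_assoc, mult_Hm, ← Matrix.mul_assoc, mult_Hm, Matrix.mul_assoc,
    diagonal_mul_diagonal]

lemma mult_one : mult (fun _ : κ → Z2 => (1 : ℂ)) = 1 := by
  symm; apply eq_mult; simp

/-- convolution with a kernel pushed forward along `φ` -/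
noncomputable def conv {τ : Type} [Fintype τ] (φ : τ → κ → Z2) (k : τ → ℂ) :
    Matrix (κ → Z2) (κ → Z2) ℂ :=
  Matrix.of fun x y => ∑ t, if x + φ t = y then k t else 0

lemma act_conv {τ V : Type} [Fintype τ] [AddCommGroup V] [Module ℂ V] (φ : τ → κ → Z2)
    (k : τ → ℂ) (a : (κ → Z2) → V) (x : κ → Z2) :
    act (conv φ k) a x = ∑ t, k t • a (x + φ t) := by
  simp only [act, conv, Matrix.of_apply, Finset.sum_smul]
  rw [Finset.sum_comm]
  simp [ite_smul]

lemma conv_eq_mult {τ : Type} [Fintype τ] (φ : τ → κ → Z2) (k : τ → ℂ) :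
    conv φ k = mult (fun ξ => ∑ t, k t * sg (φ t ⬝ᵥ ξ)) := by
  apply eq_mult
  ext x ξ
  have := act_conv φ k (fun y => Hm κ y ξ) x
  simp only [act, smul_eq_mul] at this
  rw [Matrix.mul_apply, this, Matrix.mul_diagonal, Finset.mul_sum]
  refine Finset.sum_congr rfl fun t _ => ?_
  simp only [Hm, Matrix.of_apply, add_dotProduct, sg_add]; ring

/-- the tensor power of the matrix `C` -/
noncomputable def CT (κ : Type) [Fintype κ] : Matrix (κ → Z2) (κ → Z2) ℂ :=
  Matrix.of fun x y => ∏ a, cc (x a + y a)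

lemma CT_eq_conv : CT κ = conv (fun t => t) (fun t => ∏ a, cc (t a)) := by
  ext x y
  simp only [CT, conv, Matrix.of_apply]
  rw [Finset.sum_eq_single (x + y)]
  · simp [← add_assoc]
  · intro t _ ht
    rw [if_neg]
    rintro rfl
    exact ht (by rw [← add_assoc, add_self_fun, zero_add])
  · simp

lemma act_CT {V : Type} [AddCommGroup V] [Module ℂ V] (a : (κ → Z2) → V) (x : κ → Z2) :
    act (CT κ) a x = ∑ t : κ → Z2, (∏ j, cc (t j)) • a (x + t) := by
  rw [CT_eq_conv, act_conv]

lemma sum_cc_sg (s : κ → Z2) :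
    ∑ t : κ → Z2, (∏ j, cc (t j)) * sg (t ⬝ᵥ s) = ∏ j, io (s j) := by
  simp only [← cc_sg, dotProduct, sg_sum, ← Finset.prod_mul_distrib]
  rw [← Fintype.piFinset_univ, ← Finset.prod_univ_sum (fun _ => Finset.univ)
    (fun j t => cc t * sg (t * s j))]

lemma CT_eq_mult : CT κ = mult (fun ξ => ∏ a, io (ξ a)) := by
  rw [CT_eq_conv, conv_eq_mult]
  simp only [sum_cc_sg]

noncomputable def transl (z : κ → Z2) : Matrix (κ → Z2) (κ → Z2) ℂ :=
  conv (fun _ : Unit => z) (fun _ => 1)

lemma transl_eq_mult (z : κ → Z2) : transl z = mult (fun ξ => sg (z ⬝ᵥ ξ)) := by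
  rw [transl, conv_eq_mult]; simp

lemma range_act_transl {V : Type} [AddCommGroup V] [Module ℂ V] (z : κ → Z2)
    (a : (κ → Z2) → V) : range (act (transl z) a) = range a := by
  have : act (transl z) a = a ∘ (Equiv.addRight z) := by
    funext x; rw [transl, act_conv]; simp
  rw [this, (Equiv.addRight z).surjective.range_comp]

end

section
variable {μ β : Type} [Fintype μ] [DecidableEq μ] [Fintype β] [DecidableEq β]

def qf (M : Matrix μ μ Z2) (η : μ → Z2) : ℕ :=
  ∑ a, ∑ a', (M a a').val * (η a).val * (η a').val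

omit [DecidableEq μ] in
lemma sum_symm_Z2 (f : μ → μ → Z2) (hf : ∀ a a', f a a' = f a' a) :
    ∑ a, ∑ a', f a a' = ∑ a, f a a := by
  classical
  rw [← Finset.sum_product', ← Finset.diag_union_offDiag,
    Finset.sum_union (Finset.disjoint_diag_offDiag _), Finset.sum_diag]
  rw [Finset.sum_involution (s := Finset.univ.offDiag) (fun p _ => p.swap), add_zero]
  · intro p _; simp [hf p.2 p.1]
  · intro p hp _ h
    have := congrArg Prod.fst h
    simp only [Finset.mem_offDiag] at hp
    exact hp.2.2 this.symm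
  · intro p hp
    simp only [Finset.mem_offDiag, Finset.mem_univ, true_and] at hp ⊢
    exact fun h => hp h.symm
  · intro p _; rfl

omit [DecidableEq μ] in
lemma qf_add {M M' : Matrix μ μ Z2} (hM : M.IsSymm) (hM' : M'.IsSymm) (η : μ → Z2) :
    I ^ qf (M + M') η = sg ((fun a => M a a * M' a a) ⬝ᵥ η) * (I ^ qf M η * I ^ qf M' η) := by
  set S : ℕ := ∑ a, ∑ a', (M a a').val * (M' a a').val * (η a).val * (η a').val with hS
  have h1 : qf M η + qf M' η = qf (M + M') η + 2 * S := by
    simp only [qf, hS, Finset.mul_sum, ← Finset.sum_add_distrib, Matrix.add_apply]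
    refine Finset.sum_congr rfl fun a _ => Finset.sum_congr rfl fun a' _ => ?_
    have : (M a a').val + (M' a a').val = (M a a' + M' a a').val
        + 2 * ((M a a').val * (M' a a').val) := by
      generalize M a a' = s; generalize M' a a' = t; revert s t; decide
    calc _ = ((M a a').val + (M' a a').val) * (η a).val * (η a').val := by ring
      _ = _ := by rw [this]; ring
  have h2 : (S : Z2) = (fun a => M a a * M' a a) ⬝ᵥ η := by
    simp only [hS, Nat.cast_sum, Nat.cast_mul, ZMod.natCast_val, ZMod.cast_id', id_eq]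
    rw [sum_symm_Z2]
    · refine Finset.sum_congr rfl fun a _ => ?_
      beta_reduce
      generalize M a a = s; generalize M' a a = t; generalize η a = u; revert s t u; decide
    · intro a a'
      rw [hM.apply a a', hM'.apply a a']; ring
  rw [← pow_add, h1, pow_add, pow_mul, I_sq, neg_one_pow_eq_sg, h2, mul_left_comm, ← sg_add]
  simp

omit [DecidableEq μ] in
lemma qf_vec (w η : μ → Z2) : I ^ qf (vecMulVec w w) η = io (w ⬝ᵥ η) := by
  have h1 : qf (vecMulVec w w) η = (∑ a, (w a).val * (η a).val) ^ 2 := by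
    rw [sq, Finset.sum_mul_sum, qf]
    refine Finset.sum_congr rfl fun a _ => Finset.sum_congr rfl fun a' _ => ?_
    have : (w a * w a').val = (w a).val * (w a').val := by
      generalize w a = s; generalize w a' = t; revert s t; decide
    rw [vecMulVec_apply, this]; ring
  rw [h1, I_pow_sq]
  simp [dotProduct]

lemma qf_one (η : μ → Z2) : I ^ qf (1 : Matrix μ μ Z2) η = ∏ a, io (η a) := by
  rw [qf, ← Finset.prod_pow_eq_pow_sum]
  refine Finset.prod_congr rfl fun a _ => ?_
  rw [Finset.sum_eq_single a]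
  · rcases Z2_cases (η a) with h | h <;> simp [h, ZMod.val_one]
  · intro b _ hb; rw [Matrix.one_apply_ne hb.symm]; simp
  · simp

/-- the frame operator of a symmetric matrix over `F_2` -/
noncomputable def fr (β : Type) [Fintype β] [DecidableEq β] (M : Matrix μ μ Z2) :
    Matrix (β × μ → Z2) (β × μ → Z2) ℂ :=
  mult fun ξ => ∏ j, I ^ qf M (fun a => ξ (j, a))

lemma fr_zero : fr β (0 : Matrix μ μ Z2) = 1 := by
  rw [← mult_one]; simp [fr, qf]

lemma fr_one : fr β (1 : Matrix μ μ Z2) = CT (β × μ) := by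
  rw [CT_eq_mult, fr]
  simp only [qf_one, Fintype.prod_prod_type]

lemma fr_add {M M' : Matrix μ μ Z2} (hM : M.IsSymm) (hM' : M'.IsSymm) :
    ∃ z, fr β (M + M') = transl z * (fr β M * fr β M') := by
  refine ⟨fun p => M p.2 p.2 * M' p.2 p.2, ?_⟩
  rw [transl_eq_mult, fr, fr, fr, mult_mul, mult_mul]
  congr 1
  funext ξ
  simp only [qf_add hM hM', Finset.prod_mul_distrib, ← sg_sum, dotProduct,
    Fintype.sum_prod_type]

lemma fr_vec (w : μ → Z2) : fr β (vecMulVec w w) =
    conv (fun (t : β → Z2) (p : β × μ) => t p.1 * w p.2) (fun t => ∏ j, cc (t j)) := by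
  rw [conv_eq_mult, fr]
  congr 1
  funext ξ
  simp only [qf_vec]
  rw [← sum_cc_sg (fun j => w ⬝ᵥ fun a => ξ (j, a))]
  refine Finset.sum_congr rfl fun t _ => ?_
  congr 2
  simp only [dotProduct, Fintype.sum_prod_type, Finset.mul_sum, mul_assoc]

lemma MC_fr_vec {T : ℝ} (h : MC (CT β) T) (w : μ → Z2) :
    MC (fr β (vecMulVec w w)) (2 ^ Fintype.card (β × μ) / 2 ^ Fintype.card β * T) := by
  have hT := h.nonneg
  by_cases hw : w = 0
  · subst hw
    have : vecMulVec (0 : μ → Z2) (0 : μ → Z2) = 0 := by ext; simp [vecMulVec_apply]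
    rw [this, fr_zero]
    exact MC.one.mono (by positivity)
  obtain ⟨a₀, ha₀⟩ := Function.ne_iff.1 hw
  have hw1 : w a₀ = 1 := (Z2_cases _).resolve_left ha₀
  intro V _ _ x
  set φ : (β → Z2) → (β × μ → Z2) := fun t p => t p.1 * w p.2 with hφ
  have φadd : ∀ s t, φ (s + t) = φ s + φ t := by
    intro s t; funext p; simp [hφ, add_mul]
  let B := {g : β × μ → Z2 // ∀ j, g (j, a₀) = 0}
  have hcard : (Fintype.card B : ℝ) ≤ 2 ^ Fintype.card (β × μ) / 2 ^ Fintype.card β := by
    rw [le_div_iff₀ (by positivity)]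
    have : Fintype.card (B × (β → Z2)) ≤ Fintype.card (β × μ → Z2) := by
      apply Fintype.card_le_of_injective (fun p => p.1.1 + φ p.2)
      rintro ⟨⟨g, hg⟩, t⟩ ⟨⟨g', hg'⟩, t'⟩ hh
      have ht : t = t' := by
        funext j
        have := congrFun hh (j, a₀)
        simpa [hφ, hg, hg', hw1] using this
      subst ht
      have : g = g' := add_right_cancel hh
      subst this; rfl
    rw [Fintype.card_prod, Fintype.card_fun, Fintype.card_fun, ZMod.card] at this
    exact_mod_cast this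
  have h1 := Comp.iUnion (S := range x)
    (T := fun g : B => range (act (CT β) (fun s => x (g.1 + φ s)))) (c := fun _ => T)
    (fun g => (h V _).mono_left (by rintro _ ⟨s, rfl⟩; exact mem_range_self _))
  simp only [Finset.sum_const, Finset.card_univ, nsmul_eq_mul] at h1
  refine h1.mono (subset_insert _ _) (mul_le_mul_of_nonneg_right hcard hT) ?_
  rintro _ ⟨g, rfl⟩
  refine mem_iUnion.2 ⟨⟨g + φ (fun j => g (j, a₀)), fun j => by simp [hφ, hw1]⟩,
    ⟨fun j => g (j, a₀), ?_⟩⟩
  rw [act_CT, fr_vec, act_conv]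
  refine Finset.sum_congr rfl fun t _ => ?_
  congr 2
  rw [φadd, add_assoc, ← add_assoc (φ fun j => g (j, a₀)), add_self_fun, zero_add]

end

end Vale.Agent.P344
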