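import Vale.Agent.P344.Frames

namespace Vale.Agent.P344

open Set Matrix Complex
open scoped Kronecker

/-- `M` is a sum of `n` matrices `w wᵀ` over `F_2`. -/
inductive Rk {μ : Type} : Matrix μ μ Z2 → ℕ → Prop
  | zero : Rk 0 0
  | step {M : Matrix μ μ Z2} {n : ℕ} (w : μ → Z2) : Rk M n → Rk (M + vecMulVec w w) (n + 1)

section
variable {μ ν : Type}

lemma isSymm_vec (w : μ → Z2) : (vecMulVec w w).IsSymm := by
  ext a b; simp [vecMulVec_apply, mul_comm]

lemma Rk.isSymm {M : Matrix μ μ Z2} {n : ℕ} (h : Rk M n) : M.IsSymm := by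
  induction h with
  | zero => exact isSymm_zero
  | step w _ ih => exact ih.add (isSymm_vec w)

lemma Rk.vec (w : μ → Z2) : Rk (vecMulVec w w) 1 := by
  simpa using Rk.zero.step w

lemma Rk.add {M M' : Matrix μ μ Z2} {n n' : ℕ} (h : Rk M n) (h' : Rk M' n') :
    Rk (M + M') (n + n') := by
  induction h' with
  | zero => simpa using h
  | step w _ ih => rw [← add_assoc, ← add_assoc]; exact ih.step w

lemma Rk.congr {M M' : Matrix μ μ Z2} {n n' : ℕ} (h : Rk M n) (hM : M = M') (hn : n = n') :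
    Rk M' n' := hM ▸ hn ▸ h

lemma Rk.sum {ι : Type*} (s : Finset ι) (w : ι → μ → Z2) :
    Rk (∑ i ∈ s, vecMulVec (w i) (w i)) s.card := by
  classical
  induction s using Finset.induction_on with
  | empty => simpa using Rk.zero
  | insert a s ha ih =>
    rw [Finset.sum_insert ha, Finset.card_insert_of_notMem ha, add_comm]
    exact ih.step _

lemma vec_kron (w : μ → Z2) (w' : ν → Z2) :
    vecMulVec w w ⊗ₖ vecMulVec w' w' =
      vecMulVec (fun p : μ × ν => w p.1 * w' p.2) (fun p : μ × ν => w p.1 * w' p.2) := by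
  ext ⟨a, b⟩ ⟨c, d⟩; simp [vecMulVec_apply]; ring

lemma Rk.kron {M : Matrix μ μ Z2} {M' : Matrix ν ν Z2} {n n' : ℕ} (h : Rk M n) (h' : Rk M' n') :
    Rk (M ⊗ₖ M') (n * n') := by
  induction h with
  | zero => simpa using Rk.zero
  | step w _ ih =>
    rw [add_kronecker, Nat.succ_mul]
    refine ih.add ?_
    clear ih
    induction h' with
    | zero => simpa using Rk.zero
    | step w' _ ih' => rw [kronecker_add, vec_kron]; exact ih'.step _

@[simp] lemma add_self_mat (M : Matrix μ μ Z2) : M + M = 0 := by ext; simp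

end

/-- all values stored in a family of arrays -/
def vals {ι G V : Type*} (P : ι → G → V) : Set V := ⋃ i, range (P i)

lemma range_subset_vals {ι G V : Type*} (P : ι → G → V) (i : ι) : range (P i) ⊆ vals P :=
  subset_iUnion (fun i => range (P i)) i

lemma vals_sum_elim {ι κ G V : Type*} (P : ι → G → V) (Q : κ → G → V) :
    vals (Sum.elim P Q) = vals P ∪ vals Q := by
  simp [vals, iUnion_sum]

section
variable {μ β : Type} [Fintype μ] [DecidableEq μ] [Fintype β] [DecidableEq β]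
variable {V : Type} [AddCommGroup V] [Module ℂ V]

def Lk (S : Set V) (c : ℝ) (T : Set V) : Prop := Comp S c T ∧ Comp T c S

lemma Lk.trans {S T U : Set V} {c c' : ℝ} (h : Lk S c T) (h' : Lk T c' U) : Lk S (c + c') U :=
  ⟨h.1.trans h'.1, add_comm c c' ▸ h'.2.trans h.2⟩

lemma move {τ : ℝ} (hτ : ∀ w : μ → Z2, MC (fr β (vecMulVec w w)) τ) {M D : Matrix μ μ Z2} {n : ℕ}
    (hM : M.IsSymm) (hD : Rk D n) (a : (β × μ → Z2) → V) :
    Comp (range (act (fr β M) a)) (n * τ) (range (act (fr β (M + D)) a)) := by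
  induction hD with
  | zero => simpa using Comp.refl _
  | @step D n w hD ih =>
    obtain ⟨z, hz⟩ := fr_add (β := β) (isSymm_vec w) (hM.add hD.isSymm)
    have : M + (D + vecMulVec w w) = vecMulVec w w + (M + D) := by abel
    rw [this, hz, act_mul, range_act_transl, act_mul]
    exact (ih.trans (hτ w V _)).mono_cost (by push_cast; linarith)

/-- physical contents -/
noncomputable def phys (β : Type) [Fintype β] [DecidableEq β] {ι : Type*}
    (F : ι → Matrix μ μ Z2) (L : ι → (β × μ → Z2) → V) : ι → (β × μ → Z2) → V :=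
  fun i => act (fr β (F i)) (L i)

lemma moveAll' {τ : ℝ} (hτ : ∀ w : μ → Z2, MC (fr β (vecMulVec w w)) τ) {ι : Type*} [Fintype ι]
    {F F' : ι → Matrix μ μ Z2} {n : ι → ℕ} (hF : ∀ i, (F i).IsSymm)
    (h : ∀ i, Rk (F i + F' i) (n i)) (L : ι → (β × μ → Z2) → V) :
    Comp (vals (phys β F L)) ((∑ i, n i : ℕ) * τ) (vals (phys β F' L)) := by
  have := Comp.iUnion (S := vals (phys β F L)) (T := fun i => range (phys β F' L i))
    (c := fun i => n i * τ) (fun i => by
      have h1 := move hτ (hF i) (h i) (L i)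
      rw [← add_assoc, add_self_mat, zero_add] at h1
      exact h1.mono_left (range_subset_vals (phys β F L) i))
  refine this.mono_cost (le_of_eq ?_)
  rw [Nat.cast_sum, Finset.sum_mul]

lemma moveAll {τ : ℝ} (hτ : ∀ w : μ → Z2, MC (fr β (vecMulVec w w)) τ) {ι : Type*} [Fintype ι]
    {F F' : ι → Matrix μ μ Z2} {n : ι → ℕ} (hF : ∀ i, (F i).IsSymm)
    (h : ∀ i, Rk (F i + F' i) (n i)) (L : ι → (β × μ → Z2) → V) :
    Lk (vals (phys β F L)) ((∑ i, n i : ℕ) * τ) (vals (phys β F' L)) := by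
  refine ⟨moveAll' hτ hF h L, moveAll' hτ (fun i => ?_) (fun i => add_comm (F i) _ ▸ h i) L⟩
  have := (hF i).add (h i).isSymm
  rwa [← add_assoc, add_self_mat, zero_add] at this

lemma gate_span {ι κ G : Type*} [Fintype ι] [Fintype κ] [Fintype G] {P : ι → G → V}
    {P' : κ → G → V} (h : ∀ k, P' k ∈ Submodule.span ℂ (range P)) :
    Comp (vals P) (Fintype.card κ * (Fintype.card G * (2 * Fintype.card ι))) (vals P') := by
  have h1 : ∀ k g, Comp (vals P) (2 * Fintype.card ι) {P' k g} := by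
    intro k g
    obtain ⟨c, hc⟩ := (Submodule.mem_span_range_iff_exists_fun ℂ).1 (h k)
    have := Comp.sum (S := vals P) Finset.univ c (fun i => P i g)
      (fun i _ => range_subset_vals P i (mem_range_self g))
    rw [← hc]
    simpa using this
  have h2 := Comp.iUnion (fun k => Comp.iUnion (h1 k))
  simp only [Finset.sum_const, Finset.card_univ, nsmul_eq_mul] at h2
  refine h2.mono_right ?_
  rintro _ ⟨_, ⟨k, rfl⟩, g, rfl⟩
  exact mem_iUnion.2 ⟨k, mem_iUnion.2 ⟨g, rfl⟩⟩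

/-- the span of the logical contents of the wires in the same frame as `i` -/
def sameFr {ι A W : Type*} [AddCommGroup W] [Module ℂ W] (f : ι → A) (L : ι → W) (i : ι) :
    Submodule ℂ W := Submodule.span ℂ {v | ∃ j, f j = f i ∧ L j = v}

lemma mem_sameFr {ι A W : Type*} [AddCommGroup W] [Module ℂ W] {f : ι → A} {L : ι → W} {i : ι}
    (j : ι) (h : f j = f i) : L j ∈ sameFr f L i := Submodule.subset_span ⟨j, h, rfl⟩

lemma gateF {ι A : Type*} [Fintype ι] (f : ι → A) (Ψ : A → Matrix μ μ Z2)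
    {L L' : ι → (β × μ → Z2) → V} (h : ∀ i, L' i ∈ sameFr f L i) :
    Comp (vals (phys β (fun i => Ψ (f i)) L))
      (Fintype.card ι * (Fintype.card (β × μ → Z2) * (2 * Fintype.card ι)))
      (vals (phys β (fun i => Ψ (f i)) L')) := by
  apply gate_span
  intro i
  have h1 := Submodule.mem_map_of_mem (f := actL (V := V) (fr β (Ψ (f i)))) (h i)
  rw [sameFr, Submodule.map_span] at h1
  refine Submodule.span_mono ?_ h1
  rintro _ ⟨_, ⟨j, hj, rfl⟩, rfl⟩
  exact ⟨j, by simp only [phys, hj]; rfl⟩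

end

/-- The combinatorial data of the finite network. -/
structure Design (𝒮 η : Type) [Fintype 𝒮] [DecidableEq 𝒮] [Fintype η] [DecidableEq η] where
  u : 𝒮 → η → Z2
  γ : 𝒮 → η → ℂ
  b : η → 𝒮 → ℂ
  hid : ∀ S T, u S ⬝ᵥ u T ≠ 0 → ∑ i, γ S i * b i T = if S = T then 1 else 0
  rk0 : Rk (1 : Matrix η η Z2) (Fintype.card η)
  rk1 : ∀ S, Rk (1 + vecMulVec (u S) (u S)) (Fintype.card η - 1)
  rk2 : ∀ S T, u S ⬝ᵥ u T = 0 →
    Rk (1 + vecMulVec (u S) (u S) + vecMulVec (u T) (u T)) (Fintype.card η - 2)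

namespace Design

variable {𝒮 η : Type} [Fintype 𝒮] [DecidableEq 𝒮] [Fintype η] [DecidableEq η] (D : Design 𝒮 η)

abbrev Side := {p : 𝒮 × 𝒮 // D.u p.1 ⬝ᵥ D.u p.2 = 0}

def Pj (S : 𝒮) : Matrix η η Z2 := vecMulVec (D.u S) (D.u S)

noncomputable def N (p : D.Side) : ℂ :=
  (if p.1.1 = p.1.2 then 1 else 0) - ∑ i, D.γ p.1.1 i * D.b i p.1.2

lemma ident {W : Type*} [AddCommGroup W] [Module ℂ W] (x : 𝒮 → W) (S : 𝒮) :
    ∑ p : D.Side with p.1.1 = S, D.N p • x p.1.2 + ∑ i, D.γ S i • ∑ T, D.b i T • x T = x S := by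
  have h1 : ∑ p : D.Side with p.1.1 = S, D.N p • x p.1.2 =
      ∑ T, ((if S = T then 1 else 0) - ∑ i, D.γ S i * D.b i T) • x T := by
    apply Finset.sum_of_injOn (fun p : D.Side => p.1.2)
    · rintro ⟨⟨a, b⟩, h⟩ ha ⟨⟨a', b'⟩, h'⟩ ha' hb
      simp only [Finset.coe_filter, Finset.mem_univ, true_and, mem_setOf_eq] at ha ha' hb
      subst ha ha' hb; rfl
    · simp
    · intro T _ hT
      have : D.u S ⬝ᵥ D.u T ≠ 0 := by
        intro h0
        exact hT ⟨⟨(S, T), h0⟩, by simp, rfl⟩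
      rw [D.hid S T this, sub_self, zero_smul]
    · rintro ⟨⟨a, b⟩, h⟩ ha
      simp only [Finset.mem_filter, Finset.mem_univ, true_and] at ha
      subst ha; rfl
  rw [h1]
  simp only [Finset.smul_sum, smul_smul, sub_smul, Finset.sum_sub_distrib, Finset.sum_smul]
  rw [Finset.sum_comm (f := fun i T => (D.γ S i * D.b i T) • x T)]
  simp [ite_smul]

abbrev Wt := 𝒮 ⊕ 𝒮 ⊕ D.Side ⊕ η

def st {A : Type*} (x y : 𝒮 → A) (a : D.Side → A) (c : η → A) : D.Wt → A :=
  Sum.elim x (Sum.elim y (Sum.elim a c))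

section
variable {A W : Type*} [AddCommGroup W] [Module ℂ W] {f : D.Wt → A} {x y : 𝒮 → W}
  {a : D.Side → W} {c : η → W} {i : D.Wt}

lemma memX (T : 𝒮) (h : f (.inl T) = f i) : x T ∈ sameFr f (D.st x y a c) i :=
  mem_sameFr (L := D.st x y a c) (.inl T) h
lemma memY (T : 𝒮) (h : f (.inr (.inl T)) = f i) : y T ∈ sameFr f (D.st x y a c) i :=
  mem_sameFr (L := D.st x y a c) (.inr (.inl T)) h
lemma memA (p : D.Side) (h : f (.inr (.inr (.inl p))) = f i) :
    a p ∈ sameFr f (D.st x y a c) i :=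
  mem_sameFr (L := D.st x y a c) (.inr (.inr (.inl p))) h
lemma memC (j : η) (h : f (.inr (.inr (.inr j))) = f i) :
    c j ∈ sameFr f (D.st x y a c) i :=
  mem_sameFr (L := D.st x y a c) (.inr (.inr (.inr j))) h

lemma st_mem {f : D.Wt → A} {L : D.Wt → W}
    (h1 : ∀ S, x S ∈ sameFr f L (.inl S)) (h2 : ∀ S, y S ∈ sameFr f L (.inr (.inl S)))
    (h3 : ∀ p, a p ∈ sameFr f L (.inr (.inr (.inl p))))
    (h4 : ∀ j, c j ∈ sameFr f L (.inr (.inr (.inr j)))) :
    ∀ i, D.st x y a c i ∈ sameFr f L i := by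
  rintro (S | S | p | i)
  exacts [h1 S, h2 S, h3 p, h4 i]
end

variable {μ β : Type} [Fintype μ] [DecidableEq μ] [Fintype β] [DecidableEq β]
variable {V : Type} [AddCommGroup V] [Module ℂ V]

/-- cost of one gate layer -/
noncomputable def gc (G : ℝ) : ℝ := Fintype.card D.Wt * (G * (2 * Fintype.card D.Wt))

def mc : ℕ := 2 * (Fintype.card 𝒮 * (Fintype.card η - 1)) +
  Fintype.card D.Side * (1 + (Fintype.card η - 2) + 1) + 3 * (Fintype.card η * Fintype.card η)

omit [Fintype μ] [DecidableEq μ] [Fintype β] [DecidableEq β] in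
lemma motif_abs {W : Type*} [AddCommGroup W] [Module ℂ W] {τ g : ℝ}
    (Sv : (D.Wt → Matrix η η Z2) → (D.Wt → W) → Set V)
    (mv : ∀ (f f' : D.Wt → Matrix η η Z2) (n : D.Wt → ℕ) (L : D.Wt → W),
      (∀ i, ∃ k, Rk (f i) k) → (∀ i, Rk (f i + f' i) (n i)) →
      Lk (Sv f L) ((∑ i, n i : ℕ) * τ) (Sv f' L))
    (gt : ∀ (f : D.Wt → Matrix η η Z2) (L L' : D.Wt → W),
      (∀ i, L' i ∈ sameFr f L i) → (∀ i, L i ∈ sameFr f L' i) → Lk (Sv f L) g (Sv f L'))
    (x y : 𝒮 → W) (a : D.Side → W) (c : η → W) :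
    Lk (Sv (D.st (fun _ => 0) D.Pj (fun _ => 0) (fun _ => 0)) (D.st x y a c))
      (D.mc * τ + 6 * g)
      (Sv (D.st (fun S => 1 + D.Pj S) (fun _ => 1) (fun _ => 1) (fun _ => 1))
        (D.st x (fun S => y S + x S) a c)) := by
  set h := Fintype.card η with hh
  have r0 : Rk (0 : Matrix η η Z2) 0 := Rk.zero
  have rP : ∀ S, Rk (D.Pj S) 1 := fun S => Rk.vec _
  have r1 := D.rk0
  have r2 : ∀ S, Rk (1 + D.Pj S) (h - 1) := D.rk1
  obtain ⟨a1, ha1⟩ : ∃ a1 : D.Side → W, ∀ p, a1 p = a p + x p.1.2 := ⟨_, fun _ => rfl⟩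
  obtain ⟨c1, hc1⟩ : ∃ c1 : η → W, ∀ i, c1 i = c i + ∑ T, D.b i T • x T := ⟨_, fun _ => rfl⟩
  obtain ⟨y1, hy1⟩ : ∃ y1 : 𝒮 → W, ∀ S, y1 S =
    y S + ∑ p : D.Side with p.1.1 = S, D.N p • a1 p := ⟨_, fun _ => rfl⟩
  obtain ⟨y2, hy2⟩ : ∃ y2 : 𝒮 → W, ∀ S, y2 S = y1 S + ∑ i, D.γ S i • c1 i := ⟨_, fun _ => rfl⟩
  have ha1' : ∀ p, a p = a1 p - x p.1.2 := fun p => by simp [ha1]
  have hc1' : ∀ i, c i = c1 i - ∑ T, D.b i T • x T := fun i => by simp [hc1]
  have hy1' : ∀ S, y S = y1 S - ∑ p : D.Side with p.1.1 = S, D.N p • a1 p :=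
    fun S => by simp [hy1]
  have hy2' : ∀ S, y1 S = y2 S - ∑ i, D.γ S i • c1 i := fun S => by simp [hy2]
  set f0 : D.Wt → Matrix η η Z2 := D.st (fun _ => 0) D.Pj (fun _ => 0) (fun _ => 0) with hf0
  set f1 : D.Wt → Matrix η η Z2 :=
    D.st (fun _ => 0) D.Pj (fun p => D.Pj p.1.1) (fun _ => 0) with hf1
  set f2 : D.Wt → Matrix η η Z2 :=
    D.st (fun _ => 0) (fun _ => 1) (fun p => D.Pj p.1.1) (fun _ => 1) with hf2
  set f3 : D.Wt → Matrix η η Z2 :=
    D.st (fun _ => 0) (fun _ => 1) (fun p => D.Pj p.1.1) (fun _ => 0) with hf3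
  set f4 : D.Wt → Matrix η η Z2 :=
    D.st (fun S => 1 + D.Pj S) (fun _ => 1) (fun p => 1 + D.Pj p.1.2) (fun _ => 0) with hf4
  set f5 : D.Wt → Matrix η η Z2 :=
    D.st (fun S => 1 + D.Pj S) (fun _ => 1) (fun _ => 1) (fun _ => 1) with hf5
  -- step 1
  have g1 := gt f0 (D.st x y a c) (D.st x y a1 c1)
    (D.st_mem (fun S => D.memX S rfl) (fun S => D.memY S rfl)
      (fun p => by rw [ha1]; exact add_mem (D.memA p rfl) (D.memX _ rfl))
      (fun j => by
        rw [hc1]; exact add_mem (D.memC j rfl) (sum_mem fun T _ => Submodule.smul_mem _ _ (D.memX _ rfl))))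
    (D.st_mem (fun S => D.memX S rfl) (fun S => D.memY S rfl)
      (fun p => by rw [ha1']; exact sub_mem (D.memA p rfl) (D.memX _ rfl))
      (fun j => by
        rw [hc1']; exact sub_mem (D.memC j rfl) (sum_mem fun T _ => Submodule.smul_mem _ _ (D.memX _ rfl))))
  have m1 := mv f0 f1 (D.st (fun _ => 0) (fun _ => 0) (fun _ => 1) (fun _ => 0))
    (D.st x y a1 c1) (by
      rintro (S | S | p | i)
      exacts [⟨_, r0⟩, ⟨_, rP S⟩, ⟨_, r0⟩, ⟨_, r0⟩]) (by
      rintro (S | S | p | i)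
      · exact r0.congr (add_self_mat _).symm rfl
      · exact r0.congr (add_self_mat _).symm rfl
      · exact (rP _).congr (zero_add _).symm rfl
      · exact r0.congr (add_self_mat _).symm rfl)
  have e2 : ∀ S, ∀ p ∈ ({p : D.Side | p.1.1 = S} : Finset D.Side),
      f1 (.inr (.inr (.inl p))) = f1 (.inr (.inl S)) := by
    intro S p hp
    rw [← (Finset.mem_filter.1 hp).2]; rfl
  have g2 := gt f1 (D.st x y a1 c1) (D.st x y1 a1 c1)
    (D.st_mem (fun S => D.memX S rfl) (fun S => by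
      rw [hy1]; exact add_mem (D.memY S rfl) (sum_mem fun p hp => Submodule.smul_mem _ _ (D.memA p (e2 S p hp))))
      (fun p => D.memA p rfl) (fun j => D.memC j rfl))
    (D.st_mem (fun S => D.memX S rfl) (fun S => by
      rw [hy1']; exact sub_mem (D.memY S rfl) (sum_mem fun p hp => Submodule.smul_mem _ _ (D.memA p (e2 S p hp))))
      (fun p => D.memA p rfl) (fun j => D.memC j rfl))
  have m2 := mv f1 f2 (D.st (fun _ => 0) (fun _ => h - 1) (fun _ => 0) (fun _ => h))
    (D.st x y1 a1 c1) (by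
      rintro (S | S | p | i)
      exacts [⟨_, r0⟩, ⟨_, rP S⟩, ⟨_, rP _⟩, ⟨_, r0⟩]) (by
      rintro (S | S | p | i)
      · exact r0.congr (add_self_mat _).symm rfl
      · exact (r2 S).congr (add_comm _ _) rfl
      · exact r0.congr (add_self_mat _).symm rfl
      · exact r1.congr (zero_add _).symm rfl)
  have g3 := gt f2 (D.st x y1 a1 c1) (D.st x y2 a1 c1)
    (D.st_mem (fun S => D.memX S rfl) (fun S => by
      rw [hy2]; exact add_mem (D.memY S rfl) (sum_mem fun j _ => Submodule.smul_mem _ _ (D.memC j rfl)))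
      (fun p => D.memA p rfl) (fun j => D.memC j rfl))
    (D.st_mem (fun S => D.memX S rfl) (fun S => by
      rw [hy2']; exact sub_mem (D.memY S rfl) (sum_mem fun j _ => Submodule.smul_mem _ _ (D.memC j rfl)))
      (fun p => D.memA p rfl) (fun j => D.memC j rfl))
  have m3 := mv f2 f3 (D.st (fun _ => 0) (fun _ => 0) (fun _ => 0) (fun _ => h))
    (D.st x y2 a1 c1) (by
      rintro (S | S | p | i)
      exacts [⟨_, r0⟩, ⟨_, r1⟩, ⟨_, rP _⟩, ⟨_, r1⟩]) (by
      rintro (S | S | p | i)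
      · exact r0.congr (add_self_mat _).symm rfl
      · exact r0.congr (add_self_mat _).symm rfl
      · exact r0.congr (add_self_mat _).symm rfl
      · exact r1.congr (add_zero _).symm rfl)
  have g4 := gt f3 (D.st x y2 a1 c1) (D.st x y2 a1 c)
    (D.st_mem (fun S => D.memX S rfl) (fun S => D.memY S rfl) (fun p => D.memA p rfl)
      (fun j => by
        rw [hc1']; exact sub_mem (D.memC j rfl) (sum_mem fun T _ => Submodule.smul_mem _ _ (D.memX _ rfl))))
    (D.st_mem (fun S => D.memX S rfl) (fun S => D.memY S rfl) (fun p => D.memA p rfl)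
      (fun j => by
        rw [hc1]; exact add_mem (D.memC j rfl) (sum_mem fun T _ => Submodule.smul_mem _ _ (D.memX _ rfl))))
  have m4 := mv f3 f4 (D.st (fun _ => h - 1) (fun _ => 0) (fun _ => h - 2) (fun _ => 0))
    (D.st x y2 a1 c) (by
      rintro (S | S | p | i)
      exacts [⟨_, r0⟩, ⟨_, r1⟩, ⟨_, rP _⟩, ⟨_, r0⟩]) (by
      rintro (S | S | p | i)
      · exact (r2 S).congr (zero_add _).symm rfl
      · exact r0.congr (add_self_mat _).symm rfl
      · refine (D.rk2 _ _ p.2).congr ?_ rfl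
        change _ = D.Pj p.1.1 + (1 + D.Pj p.1.2)
        simp only [Pj]; abel
      · exact r0.congr (add_self_mat _).symm rfl)
  have g5 := gt f4 (D.st x y2 a1 c) (D.st x y2 a c)
    (D.st_mem (fun S => D.memX S rfl) (fun S => D.memY S rfl)
      (fun p => by rw [ha1']; exact sub_mem (D.memA p rfl) (D.memX _ rfl)) (fun j => D.memC j rfl))
    (D.st_mem (fun S => D.memX S rfl) (fun S => D.memY S rfl)
      (fun p => by rw [ha1]; exact add_mem (D.memA p rfl) (D.memX _ rfl)) (fun j => D.memC j rfl))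
  have m5 := mv f4 f5 (D.st (fun _ => 0) (fun _ => 0) (fun _ => 1) (fun _ => h))
    (D.st x y2 a c) (by
      rintro (S | S | p | i)
      exacts [⟨_, r2 S⟩, ⟨_, r1⟩, ⟨_, r2 _⟩, ⟨_, r0⟩]) (by
      rintro (S | S | p | i)
      · exact r0.congr (add_self_mat _).symm rfl
      · exact r0.congr (add_self_mat _).symm rfl
      · refine (rP p.1.2).congr ?_ rfl
        change _ = 1 + D.Pj p.1.2 + 1
        rw [add_right_comm, add_self_mat, zero_add]
      · exact r1.congr (zero_add _).symm rfl)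
  have key : ∀ S, y2 S = (y S + x S) + (∑ p : D.Side with p.1.1 = S, D.N p • a p
      + ∑ i, D.γ S i • c i) := by
    intro S
    conv_rhs => rw [← D.ident x S]
    simp only [hy2, hy1, ha1, hc1, smul_add, Finset.sum_add_distrib]
    abel
  have key' : ∀ S, y S + x S = y2 S - (∑ p : D.Side with p.1.1 = S, D.N p • a p
      + ∑ i, D.γ S i • c i) := fun S => by rw [key]; abel
  have g6 := gt f5 (D.st x y2 a c) (D.st x (fun S => y S + x S) a c)
    (D.st_mem (fun S => D.memX S rfl) (fun S => by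
      rw [key']
      exact sub_mem (D.memY S rfl) (add_mem (sum_mem fun p _ => Submodule.smul_mem _ _ (D.memA p rfl))
        (sum_mem fun j _ => Submodule.smul_mem _ _ (D.memC j rfl)))) (fun p => D.memA p rfl) (fun j => D.memC j rfl))
    (D.st_mem (fun S => D.memX S rfl) (fun S => by
      rw [key]
      exact add_mem (D.memY (y := fun S => y S + x S) S rfl)
        (add_mem (sum_mem fun p _ => Submodule.smul_mem _ _ (D.memA p rfl))
        (sum_mem fun j _ => Submodule.smul_mem _ _ (D.memC j rfl)))) (fun p => D.memA p rfl) (fun j => D.memC j rfl))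
  have all := (((((((((g1.trans m1).trans g2).trans m2).trans g3).trans m3).trans g4).trans
    m4).trans g5).trans m5).trans g6
  convert all using 1
  simp only [mc, st, Fintype.sum_sum_type, Sum.elim_inl, Sum.elim_inr, Finset.sum_const,
    Finset.card_univ, smul_eq_mul, ← hh]
  push_cast
  ring

lemma motif {τ : ℝ} (hτ : ∀ w : μ → Z2, MC (fr β (vecMulVec w w)) τ)
    (Φ : Matrix η η Z2 →+ Matrix μ μ Z2) (hΦ : ∀ M n, Rk M n → Rk (Φ M) n)
    (B : Matrix μ μ Z2) (hB : B.IsSymm) (x y : 𝒮 → (β × μ → Z2) → V)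
    (a : D.Side → (β × μ → Z2) → V) (c : η → (β × μ → Z2) → V) :
    Lk (vals (phys β (fun i => B + Φ (D.st (fun _ => 0) D.Pj (fun _ => 0) (fun _ => 0) i))
          (D.st x y a c)))
      (D.mc * τ + 6 * D.gc (Fintype.card (β × μ → Z2)))
      (vals (phys β (fun i => B + Φ (D.st (fun S => 1 + D.Pj S) (fun _ => 1) (fun _ => 1)
          (fun _ => 1) i)) (D.st x (fun S => y S + x S) a c))) := by
  have mv : ∀ (f f' : D.Wt → Matrix η η Z2) (n : D.Wt → ℕ) (L : D.Wt → (β × μ → Z2) → V),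
      (∀ i, ∃ k, Rk (f i) k) → (∀ i, Rk (f i + f' i) (n i)) →
      Lk (vals (phys β (fun i => B + Φ (f i)) L)) ((∑ i, n i : ℕ) * τ)
        (vals (phys β (fun i => B + Φ (f' i)) L)) := by
    intro f f' n L h1 h2
    refine moveAll hτ (fun i => ?_) (fun i => ?_) L
    · obtain ⟨k, hk⟩ := h1 i
      exact hB.add (hΦ _ _ hk).isSymm
    · refine (hΦ _ _ (h2 i)).congr ?_ rfl
      rw [map_add, add_add_add_comm, add_self_mat, zero_add]
  have gt : ∀ (f : D.Wt → Matrix η η Z2) (L L' : D.Wt → (β × μ → Z2) → V),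
      (∀ i, L' i ∈ sameFr f L i) → (∀ i, L i ∈ sameFr f L' i) →
      Lk (vals (phys β (fun i => B + Φ (f i)) L)) (D.gc (Fintype.card (β × μ → Z2)))
        (vals (phys β (fun i => B + Φ (f i)) L')) := fun f L L' h1 h2 =>
    ⟨gateF f (fun M => B + Φ M) h1, gateF f (fun M => B + Φ M) h2⟩
  exact D.motif_abs (fun f L => vals (phys β (fun i => B + Φ (f i)) L)) mv gt x y a c

end Design

end Vale.Agent.P344
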