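import Vale.Agent.P344.Network
import Vale.Agent.P344.Triples

namespace Vale.Agent.P344

open Set Matrix

lemma act_CT_sum {κ₁ κ₂ V : Type} [Fintype κ₁] [DecidableEq κ₁] [Fintype κ₂] [DecidableEq κ₂]
    [AddCommGroup V] [Module ℂ V] (x : (κ₁ ⊕ κ₂ → Z2) → V) (ω : κ₁ → Z2) (g : κ₂ → Z2) :
    act (CT (κ₁ ⊕ κ₂)) x (Sum.elim ω g) =
      act (CT κ₁) (fun ω' => act (CT κ₂) (fun g' => x (Sum.elim ω' g')) g) ω := by
  simp only [act, CT, Matrix.of_apply, Finset.smul_sum, smul_smul]
  rw [← Finset.sum_product', Finset.univ_product_univ]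
  symm
  refine Fintype.sum_equiv (Equiv.sumArrowEquivProdArrow κ₁ κ₂ Z2).symm _ _ ?_
  rintro ⟨ω', g'⟩
  simp only [Fintype.prod_sum_type]
  rfl

lemma MC_CT_equiv {κ κ' : Type} [Fintype κ] [DecidableEq κ] [Fintype κ'] [DecidableEq κ']
    (hc : Fintype.card κ = Fintype.card κ') {c : ℝ} (h : MC (CT κ) c) : MC (CT κ') c := by
  obtain ⟨e⟩ := Fintype.card_eq.1 hc
  have : CT κ' = (CT κ).submatrix (fun f => f ∘ e) (fun f => f ∘ e) := by
    ext x y
    simp only [CT, Matrix.of_apply, submatrix_apply, Function.comp]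
    exact (Fintype.prod_equiv e _ _ (fun _ => rfl)).symm
  rw [this]
  exact h.submatrix _ _ (fun f g hfg => e.surjective.injective_comp_right hfg)

namespace Design

variable {𝒮 η : Type} [Fintype 𝒮] [DecidableEq 𝒮] [Fintype η] [DecidableEq η] (D : Design 𝒮 η)
variable {β : Type} [Fintype β] [DecidableEq β]
variable {V : Type} [AddCommGroup V] [Module ℂ V]

lemma batch (hη : 2 ≤ Fintype.card η) {τ : ℝ}
    (hτ : ∀ w : η × η × η → Z2, MC (fr β (vecMulVec w w)) τ) {ω : Type} [Fintype ω]
    (hω : D.W ≤ Fintype.card ω) (Z : ω → (β × (η × η × η) → Z2) → V) :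
    Comp (vals Z) ((Fintype.card ω * (Fintype.card η : ℝ) ^ 3 - (2 * Fintype.card 𝒮 ^ 3 -
        6 * Fintype.card 𝒮 ^ 2 * Fintype.card η ^ 2)) * τ +
        D.gconst * Fintype.card (β × (η × η × η) → Z2))
      (vals (fun s => act (CT _) (Z s))) := by
  classical
  let A := (𝒮 × 𝒮) × D.Aux
  let Wr := ((((𝒮 × 𝒮 × 𝒮) ⊕ (𝒮 × 𝒮 × 𝒮)) ⊕ A) ⊕ A) ⊕ A
  have hc : Fintype.card Wr = D.W := by
    simp only [Wr, A, Fintype.card_sum (α := _ ⊕ _), Fintype.card_sum (α := _ × _),
      Fintype.card_prod, W]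
    ring
  obtain ⟨e⟩ := Function.Embedding.nonempty_of_card_le (α := Wr) (β := ω) (hc ▸ hω)
  have sub : ∀ {ι : Type} (f : ι → Wr), vals (fun s => Z (e (f s))) ⊆ vals Z :=
    fun f => iUnion_subset fun s => range_subset_vals Z _
  have h1 := D.network hη hτ (fun s => Z (e (.inl (.inl (.inl (.inl s))))))
    (fun s => Z (e (.inl (.inl (.inl (.inr s)))))) (fun s => Z (e (.inl (.inl (.inr s)))))
    (fun s => Z (e (.inl (.inr s)))) (fun s => Z (e (.inr s))) (vals Z)
    (sub _) (sub _) (sub _) (sub _) (sub _)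
  have r1 : Rk (1 : Matrix (η × η × η) (η × η × η) Z2) (Fintype.card η ^ 3) :=
    (D.rk0.tri D.rk0 D.rk0).congr tri_one (by ring)
  have h2 := Comp.biUnion (S := vals Z) (Finset.univ.map e)ᶜ
    (T := fun i => range (act (CT _) (Z i))) (c := fun _ => (Fintype.card η ^ 3 : ℕ) * τ)
    (fun i _ => by
      have := move hτ isSymm_zero r1 (Z i)
      rw [fr_zero, act_one, zero_add, fr_one] at this
      exact this.mono_left (range_subset_vals Z i))
  refine (h1.union h2).mono (subset_insert _ _) (le_of_eq ?_) ?_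
  · rw [Finset.sum_const, Finset.card_compl, Finset.card_map, Finset.card_univ, hc, nsmul_eq_mul,
      Nat.cast_sub hω]
    push_cast; ring
  · refine iUnion_subset fun i => ?_
    by_cases hi : i ∈ Finset.univ.map e
    · obtain ⟨s, -, rfl⟩ := Finset.mem_map.1 hi
      refine subset_union_of_subset_left ?_ _
      rcases s with (((s | s) | s) | s) | s
      · refine subset_union_of_subset_left (subset_union_of_subset_left
          (subset_union_of_subset_left (subset_union_of_subset_left ?_ _) _) _) _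
        exact sub_vals s rfl
      · refine subset_union_of_subset_left (subset_union_of_subset_left
          (subset_union_of_subset_left (subset_union_of_subset_right ?_ _) _) _) _
        exact sub_vals s rfl
      · refine subset_union_of_subset_left (subset_union_of_subset_left
          (subset_union_of_subset_right ?_ _) _) _
        exact sub_vals s rfl
      · refine subset_union_of_subset_left (subset_union_of_subset_right ?_ _) _
        exact sub_vals s rfl
      · refine subset_union_of_subset_right ?_ _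
        exact sub_vals s rfl
    · refine subset_union_of_subset_right ?_ _
      exact subset_biUnion_of_mem (u := fun i => range (act (CT _) (Z i)))
        (Finset.mem_coe.2 (Finset.mem_compl.2 hi))

omit [Fintype β] [DecidableEq β] in
lemma rec_step (hη : 2 ≤ Fintype.card η) {w : ℕ} (hw : D.W ≤ 2 ^ w) (r b : ℕ) {t : ℝ}
    (h : MC (CT (Fin b)) (2 ^ b * t)) :
    MC (CT (Fin (w + r + b * Fintype.card η ^ 3))) (2 ^ (w + r + b * Fintype.card η ^ 3) *
      (((Fintype.card η : ℝ) ^ 3 - (2 * Fintype.card 𝒮 ^ 3 -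
        6 * Fintype.card 𝒮 ^ 2 * Fintype.card η ^ 2) / 2 ^ w) * t
        + (D.gconst / 2 ^ w + 2 * 2 ^ (w + r)))) := by
  have hcard : Fintype.card (Fin b × (η × η × η)) = b * Fintype.card η ^ 3 := by
    simp only [Fintype.card_prod, Fintype.card_fin]; ring
  refine MC_CT_equiv (κ := (Fin w ⊕ Fin r) ⊕ (Fin b × (η × η × η)))
    (by rw [Fintype.card_sum, hcard]; simp) ?_
  intro V _ _ x
  have hτ := MC_fr_vec (μ := η × η × η) h
  have h1 := Comp.iUnion (S := range x) (fun ρ : Fin r → Z2 =>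
    (D.batch hη hτ (ω := Fin w → Z2) (by simpa using hw)
      (fun ω g => x (Sum.elim (Sum.elim ω ρ) g))).mono_left
      (iUnion_subset fun ω => by rintro _ ⟨g, rfl⟩; exact mem_range_self _))
  have h2 := h1.trans (Comp.iUnion (fun g : Fin b × (η × η × η) → Z2 =>
    (MC.triv (CT (Fin w ⊕ Fin r)) V
      (fun ω' => act (CT _) (fun g' => x (Sum.elim ω' g')) g)).mono_left (by
        rintro _ ⟨ω', rfl⟩
        refine mem_iUnion.2 ⟨ω' ∘ Sum.inr, mem_iUnion.2 ⟨ω' ∘ Sum.inl, g, ?_⟩⟩
        simp only [Sum.elim_comp_inl_inr])))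
  refine h2.mono (subset_insert _ _) (le_of_eq ?_) ?_
  · simp only [Finset.sum_const, Finset.card_univ, nsmul_eq_mul, Fintype.card_fun, ZMod.card,
      hcard, Fintype.card_fin, Fintype.card_sum]
    push_cast
    simp only [pow_add]
    field_simp
    ring
  · rintro _ ⟨f, rfl⟩
    refine mem_iUnion.2 ⟨f ∘ Sum.inr, f ∘ Sum.inl, ?_⟩
    rw [← act_CT_sum, Sum.elim_comp_inl_inr]

omit [Fintype β] [DecidableEq β] in
lemma gconst_nonneg : 0 ≤ D.gconst := by
  unfold Design.gconst Design.gc; positivity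

end Design

lemma rec_solve {P : ℕ → ℝ → Prop} (hmono : ∀ k t t', P k t → t ≤ t' → P k t')
    {w m : ℕ} (hm : 0 < m) {lam θ g : ℝ} (hθ : 0 ≤ θ) (hl2 : 2 ≤ lam) (hl : lam ≤ (m : ℝ) ^ θ)
    (hg : 0 ≤ g) (htriv : ∀ k, P k (2 * 2 ^ k))
    (hstep : ∀ r b t, P b t → P (w + r + b * m) (lam * t + (g + 2 * 2 ^ (w + r)))) :
    ∃ B : ℝ, 0 ≤ B ∧ ∀ k, P k (B * ((k : ℝ) + 1) ^ θ) := by
  set A : ℝ := g + 2 * 2 ^ (w + m) with hA
  have hA0 : 0 ≤ A := by positivity
  have key : ∀ k, 1 ≤ k → P k (2 * A * (k : ℝ) ^ θ - A) := by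
    intro k
    induction k using Nat.strong_induction_on with
    | _ k ih =>
      intro hk
      by_cases hkm : k < w + m
      · refine hmono _ _ _ (htriv k) ?_
        have h1 : (1 : ℝ) ≤ (k : ℝ) ^ θ := Real.one_le_rpow (by exact_mod_cast hk) hθ
        have h2 : (2 : ℝ) ^ k ≤ 2 ^ (w + m) := pow_le_pow_right₀ one_le_two hkm.le
        nlinarith
      · have hm2 : 2 ≤ m := by
          by_contra h
          have : m = 1 := by omega
          subst this
          simp at hl; linarith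
        set b := (k - w) / m with hb
        set r := (k - w) % m with hr
        have hk' : k = w + r + b * m := by
          have := Nat.mod_add_div' (k - w) m
          rw [← hb, ← hr] at this
          omega
        have hrm : r < m := Nat.mod_lt _ hm
        have hb1 : 1 ≤ b := by
          rw [hb]; exact (Nat.le_div_iff_mul_le hm).2 (by omega)
        have hbm : b * m ≤ k := by omega
        have hbk : b < k := by nlinarith
        have := hstep r b _ (ih b hbk hb1)
        rw [← hk'] at this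
        refine hmono _ _ _ this ?_
        have h2 : (2 : ℝ) ^ (w + r) ≤ 2 ^ (w + m) := pow_le_pow_right₀ one_le_two (by omega)
        have h3 : lam * (b : ℝ) ^ θ ≤ (k : ℝ) ^ θ := by
          calc lam * (b : ℝ) ^ θ ≤ (m : ℝ) ^ θ * (b : ℝ) ^ θ :=
                mul_le_mul_of_nonneg_right hl (by positivity)
            _ = ((b * m : ℕ) : ℝ) ^ θ := by
                rw [← Real.mul_rpow (by positivity) (by positivity)]; push_cast; rw [mul_comm]
            _ ≤ _ := Real.rpow_le_rpow (by positivity) (by exact_mod_cast hbm) hθ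
        nlinarith
  refine ⟨2 * A, by positivity, fun k => ?_⟩
  rcases Nat.eq_zero_or_pos k with rfl | hk
  · refine hmono _ _ _ (htriv 0) ?_
    have : (1 : ℝ) ≤ 2 ^ (w + m) := one_le_pow₀ one_le_two
    simp; linarith
  · refine hmono _ _ _ (key k hk) ?_
    have : (k : ℝ) ^ θ ≤ ((k : ℝ) + 1) ^ θ := Real.rpow_le_rpow (by positivity) (by linarith) hθ
    nlinarith

noncomputable def θ₀ : ℝ := 1 - 14 / 10 ^ 11

lemma lam_le : (27000 : ℝ) - 44835392000 / 2 ^ 50 ≤ (27000 : ℝ) ^ θ₀ := by
  have h1 : Real.log 27000 ≤ 10.4 := by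
    have : Real.log 27000 ≤ Real.log (2 ^ 15) := Real.log_le_log (by norm_num) (by norm_num)
    rw [Real.log_pow] at this
    have := Real.log_two_lt_d9
    push_cast at *
    linarith
  rw [θ₀, Real.rpow_sub (by norm_num), Real.rpow_one, div_eq_mul_inv (27000 : ℝ),
    ← Real.rpow_neg (by norm_num), Real.rpow_def_of_pos (by norm_num)]
  have h2 := Real.add_one_le_exp (Real.log 27000 * -(14 / 10 ^ 11))
  nlinarith

theorem MC_CT_of {𝒮 η : Type} [Fintype 𝒮] [DecidableEq 𝒮] [Fintype η] [DecidableEq η]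
    (D : Design 𝒮 η) (h1 : Fintype.card 𝒮 = 4060) (h2 : Fintype.card η = 30) :
    ∃ B : ℝ, 0 ≤ B ∧ ∀ k, MC (CT (Fin k)) (2 ^ k * (B * ((k : ℝ) + 1) ^ θ₀)) := by
  have hW : D.W ≤ 2 ^ 50 := by
    have : Fintype.card D.Side ≤ 4060 * 4060 := by
      refine (Fintype.card_subtype_le _).trans ?_
      rw [Fintype.card_prod, h1]
    rw [Design.W, Fintype.card_sum, h1, h2]
    generalize Fintype.card D.Side = n at *
    omega
  have hg : 0 ≤ D.gconst := D.gconst_nonneg
  refine rec_solve (P := fun k t => MC (CT (Fin k)) (2 ^ k * t)) (w := 50) (m := 27000)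
    (lam := 27000 - 44835392000 / 2 ^ 50) (g := D.gconst / 2 ^ 50) ?_ (by norm_num)
    (by norm_num [θ₀]) (by norm_num) (by exact_mod_cast lam_le) (by positivity) ?_ ?_
  · intro k t t' h ht
    exact h.mono (by gcongr)
  · intro k
    refine (MC.triv _).mono (le_of_eq ?_)
    simp
  · intro r b t h
    have := D.rec_step (by omega) hW r b h
    have e1 : Fintype.card η ^ 3 = 27000 := by rw [h2]; norm_num
    have e2 : ((Fintype.card η : ℝ) ^ 3 - (2 * Fintype.card 𝒮 ^ 3 -
        6 * Fintype.card 𝒮 ^ 2 * Fintype.card η ^ 2) / 2 ^ 50) =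
        27000 - 44835392000 / 2 ^ 50 := by rw [h1, h2]; norm_num
    rw [e1, e2] at this
    exact this

theorem MC_CT : ∃ B : ℝ, 0 ≤ B ∧ ∀ k, MC (CT (Fin k)) (2 ^ k * (B * ((k : ℝ) + 1) ^ θ₀)) :=
  MC_CT_of design card_Trip (Fintype.card_fin 30)

end Vale.Agent.P344
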