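import Vale.Agent.P344.Newton
import Vale.Agent.P344.Tensor

namespace Vale.Agent.P344

open Set Matrix Complex
open scoped Kronecker

lemma act_kron {ι κ ι' κ' V : Type*} [Fintype ι] [Fintype ι'] [AddCommGroup V] [Module ℂ V]
    (A : Matrix κ ι ℂ) (B : Matrix κ' ι' ℂ) (x : ι × ι' → V) (k : κ) (k' : κ') :
    act (A ⊗ₖ B) x (k, k') = act A (fun i => act B (fun i' => x (i, i')) k') k := by
  simp only [act, kroneckerMap_apply, Fintype.sum_prod_type, Finset.smul_sum, smul_smul]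

lemma act_lay {ι V : Type} [Fintype ι] [DecidableEq ι] [AddCommGroup V] [Module ℂ V]
    (σ : Equiv.Perm ι) (y : ι → V) (i : ι) :
    act (lay σ) y i = cc 0 • y i + cc 1 • y (σ i) := by
  simp only [act, lay, Matrix.of_apply, add_smul, Finset.sum_add_distrib, ite_smul, zero_smul,
    Finset.sum_ite_eq, Finset.mem_univ, if_true]

lemma act_CT_unit {V : Type} [AddCommGroup V] [Module ℂ V] (z : (Unit → Z2) → V) (s : Z2) :
    act (CT Unit) z (fun _ => s) = cc 0 • z (fun _ => s) + cc 1 • z (fun _ => s + 1) := by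
  rw [act_CT, ← (Equiv.funUnique Unit Z2).symm.sum_comp, sum_Z2]
  simp only [Finset.univ_unique, Finset.prod_singleton]
  congr 2
  congr 1; funext _; simp

section
variable (φ : ℕ → ℝ) {ι ι' : Type} [Fintype ι] [DecidableEq ι] [Fintype ι'] [DecidableEq ι']

def LayM (k : ℕ) (L : Matrix ι ι ℂ) : Prop :=
  ∀ (κ : Type) [Fintype κ] [DecidableEq κ],
    MC (L ⊗ₖ CT κ) (Fintype.card ι * 2 ^ Fintype.card κ * φ (Fintype.card κ + k))

inductive WordM (k : ℕ) : ℕ → Matrix ι ι ℂ → Prop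
  | nil : WordM k 0 1
  | cons {T : ℕ} {L B : Matrix ι ι ℂ} (d d' : ι → ℂ) (π π' : Equiv.Perm ι) :
      LayM φ k L → WordM k T B → WordM k (T + 1) (mono d π * L * mono d' π' * B)

variable {φ}

omit [DecidableEq ι] in
lemma LayM.tensor (hφ : Monotone φ) (hφ0 : ∀ k, 0 ≤ φ k) {k : ℕ} {L : Matrix ι ι ℂ}
    (h : LayM φ k L) {σ : Equiv.Perm ι'} (hσ : ∀ i, σ (σ i) = i) :
    LayM φ (k + 1) (L ⊗ₖ lay σ) := by
  intro κ _ _ V _ _ x
  obtain ⟨f, hf⟩ := Countable.exists_injective_nat ι'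
  set w : ι' → ℝ := fun i => if σ i = i then 1 else if f i < f (σ i) then 2 else 0 with hw
  have hsum : ∑ i, w i = Fintype.card ι' := by
    have h1 : ∑ i, w i = ∑ i, w (σ i) := (Equiv.sum_comp σ w).symm
    have h2 : ∀ i, w i + w (σ i) = 2 := by
      intro i
      simp only [hw, hσ]
      by_cases h : σ i = i
      · simp [h]; norm_num
      · have h' : ¬ i = σ i := fun e => h e.symm
        have : f i ≠ f (σ i) := fun e => h' (hf e)
        rcases lt_or_gt_of_ne this with h3 | h3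
        · simp [h, h', h3, h3.le]
        · simp [h, h', h3, h3.le]
    have h3 : ∑ i, w i + ∑ i, w (σ i) = 2 * Fintype.card ι' := by
      rw [← Finset.sum_add_distrib]; simp [h2, mul_comm]
    linarith
  set c : ℝ := Fintype.card ι * 2 ^ Fintype.card κ * φ (Fintype.card κ + (k + 1)) with hc
  set out := act ((L ⊗ₖ lay σ) ⊗ₖ CT κ) x with hout
  have hout' : ∀ i i' g, out ((i, i'), g) = act L (fun j =>
      cc 0 • act (CT κ) (fun g' => x ((j, i'), g')) g +
      cc 1 • act (CT κ) (fun g' => x ((j, σ i'), g')) g) i := by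
    intro i i' g
    simp only [hout, act_kron, act_lay]
  have key : ∀ i' : ι', Comp (range x) (w i' * c)
      {v | (σ i' = i' ∨ f i' < f (σ i')) ∧ ∃ i g, v = out ((i, i'), g) ∨ v = out ((i, σ i'), g)} := by
    intro i'
    by_cases h1 : σ i' = i'
    · refine (h κ V (fun p => x ((p.1, i'), p.2))).mono ?_ ?_ ?_
      · rintro _ ⟨p, rfl⟩; exact mem_insert_of_mem _ (mem_range_self _)
      · simp only [hw, h1, if_true, one_mul, hc]
        have := hφ (show Fintype.card κ + k ≤ Fintype.card κ + (k + 1) by omega)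
        gcongr
      · rintro v ⟨-, i, g, hv⟩
        rw [h1, or_self] at hv
        refine ⟨(i, g), ?_⟩
        rw [hv, hout', act_kron, h1]
        congr 1; funext j
        rw [← add_smul]; simp; ring_nf; simp
    · by_cases h2 : f i' < f (σ i')
      · refine (h (Unit ⊕ κ) V (fun p =>
          x ((p.1, if p.2 (.inl ()) = 0 then i' else σ i'), fun a => p.2 (.inr a)))).mono ?_ ?_ ?_
        · rintro _ ⟨p, rfl⟩; exact mem_insert_of_mem _ (mem_range_self _)
        · simp only [hw, h1, h2, if_true, if_false, hc, Fintype.card_sum, Fintype.card_unit]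
          rw [show 1 + Fintype.card κ + k = Fintype.card κ + (k + 1) by omega, pow_add]
          apply le_of_eq; ring
        · rintro v ⟨-, i, g, hv | hv⟩
          · refine ⟨(i, Sum.elim (fun _ => 0) g), ?_⟩
            rw [hv, hout', act_kron]
            congr 1; funext j
            rw [act_CT_sum, act_CT_unit]
            simp
          · refine ⟨(i, Sum.elim (fun _ => 1) g), ?_⟩
            rw [hv, hout', act_kron]
            congr 1; funext j
            rw [act_CT_sum, act_CT_unit]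
            simp [hσ]
      · refine (Comp.of_subset ?_).mono_cost (by simp [hw, h1, h2])
        rintro v ⟨h3 | h3, -⟩
        exacts [absurd h3 h1, absurd h3 h2]
  refine (Comp.iUnion key).mono (subset_insert _ _) (le_of_eq ?_) ?_
  · rw [← Finset.sum_mul, hsum, hc, Fintype.card_prod]; push_cast; ring
  · rintro _ ⟨⟨⟨i, i'⟩, g⟩, rfl⟩
    by_cases h1 : σ i' = i' ∨ f i' < f (σ i')
    · exact mem_iUnion.2 ⟨i', h1, i, g, Or.inl rfl⟩
    · push Not at h1
      refine mem_iUnion.2 ⟨σ i', Or.inr ?_, i, g, Or.inr (by rw [hσ])⟩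
      rw [hσ]
      exact lt_of_le_of_ne h1.2 fun e => h1.1 (hf e)

omit [Fintype ι] [Fintype ι'] in
lemma mono_kron (d : ι → ℂ) (π : Equiv.Perm ι) (d' : ι' → ℂ) (π' : Equiv.Perm ι') :
    mono d π ⊗ₖ mono d' π' = mono (fun p => d p.1 * d' p.2) (Equiv.prodCongr π π') := by
  ext ⟨i, i'⟩ ⟨j, j'⟩
  by_cases h : π i = j <;> by_cases h' : π' i' = j' <;> simp [mono, h, h']

lemma WordM.tensor (hφ : Monotone φ) (hφ0 : ∀ k, 0 ≤ φ k) {k T : ℕ} {A : Matrix ι ι ℂ}
    (h : WordM φ k T A) {A' : Matrix ι' ι' ℂ} (h' : Word T A') :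
    WordM φ (k + 1) T (A ⊗ₖ A') := by
  induction h generalizing A' with
  | nil => cases h'; rw [one_kronecker_one]; exact WordM.nil
  | cons d d' π π' hL _ ih =>
    cases h' with
    | cons hl hw =>
      obtain ⟨e, e', ρ, ρ', σ, hσ, rfl⟩ := hl
      rw [mul_kronecker_mul, mul_kronecker_mul, mul_kronecker_mul, mono_kron, mono_kron]
      exact WordM.cons _ _ _ _ (hL.tensor hφ hφ0 hσ) (ih hw)

omit [DecidableEq ι] [DecidableEq ι'] in
lemma LayM.reindex {k : ℕ} {L : Matrix ι ι ℂ} (h : LayM φ k L) (e : ι' ≃ ι) :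
    LayM φ k (L.submatrix e e) := by
  intro κ _ _
  rw [Fintype.card_congr e]
  exact (h κ).submatrix (Prod.map e id) (Prod.map e id)
    (e.injective.prodMap Function.injective_id)

lemma WordM.reindex {k T : ℕ} {A : Matrix ι ι ℂ} (h : WordM φ k T A) (e : ι' ≃ ι) :
    WordM φ k T (A.submatrix e e) := by
  induction h with
  | nil => simpa using WordM.nil
  | cons d d' π π' hL _ ih =>
    rw [← submatrix_mul_equiv _ _ e e e, ← submatrix_mul_equiv _ _ e e e,
      ← submatrix_mul_equiv _ _ e e e, mono_submatrix, mono_submatrix]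
    exact WordM.cons _ _ _ _ (hL.reindex e) ih

lemma LayM.one (h : ∀ k, MC (CT (Fin k)) (2 ^ k * φ k)) : LayM φ 0 (1 : Matrix ι ι ℂ) := by
  intro κ _ _ V _ _ x
  have h1 := MC_CT_equiv (κ' := κ) (Fintype.card_fin _) (h (Fintype.card κ))
  have := Comp.iUnion (S := range x) fun i : ι => (h1 V (fun g => x (i, g))).mono_left
    (by rintro _ ⟨g, rfl⟩; exact mem_range_self _)
  refine this.mono (subset_insert _ _) (le_of_eq (by simp [mul_assoc])) ?_
  rintro _ ⟨⟨i, g⟩, rfl⟩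
  refine mem_iUnion.2 ⟨i, g, ?_⟩
  rw [act_kron, act_one]

lemma WordM.one (h : ∀ k, MC (CT (Fin k)) (2 ^ k * φ k)) (T : ℕ) :
    WordM φ 0 T (1 : Matrix ι ι ℂ) := by
  induction T with
  | zero => exact WordM.nil
  | succ T ih =>
    simpa [mono_one_one] using WordM.cons (fun _ => 1) (fun _ => 1) 1 1 (LayM.one h) ih

lemma WordM.cost {k T : ℕ} {A : Matrix ι ι ℂ} (h : WordM φ k T A) :
    MC A (T * (Fintype.card ι * (2 + φ k))) := by
  induction h with
  | nil => simpa using MC.one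
  | @cons T L B d d' π π' hL _ ih =>
    have h1 : MC L (Fintype.card ι * φ k) := by
      have := (hL Empty).submatrix (fun i => (i, default)) (fun i => (i, default))
        (fun a b h => congrArg Prod.fst h)
      simp only [Fintype.card_eq_zero, pow_zero, mul_one, zero_add] at this
      convert this using 1
      ext i j; simp [CT]
    have h2 : ∀ d π, MC (mono d π : Matrix ι ι ℂ) (Fintype.card ι) := fun d π =>
      MC.of_single d π fun _ _ => rfl
    refine ((((h2 d π).mul h1).mul (h2 d' π')).mul ih).mono (le_of_eq ?_)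
    push_cast; ring

end

def crt (a b : ℕ) (ha : 0 < a) (hb : 0 < b) : Fin (b * a) → Fin a × Fin b :=
  fun x => (⟨x % a, Nat.mod_lt _ ha⟩, ⟨x % b, Nat.mod_lt _ hb⟩)

lemma crt_bij {a b : ℕ} (ha : 0 < a) (hb : 0 < b) (hab : Nat.Coprime b a) :
    Function.Bijective (crt a b ha hb) := by
  rw [Fintype.bijective_iff_injective_and_card]
  refine ⟨fun x y h => ?_, by simp [mul_comm]⟩
  simp only [crt, Prod.mk.injEq, Fin.mk.injEq] at h
  have := (Nat.modEq_and_modEq_iff_modEq_mul hab).1 ⟨h.2, h.1⟩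
  exact Fin.ext (Nat.ModEq.eq_of_lt_of_lt this x.2 y.2)

lemma Fm_crt {a b : ℕ} (ha : 0 < a) (hb : 0 < b) (hab : Nat.Coprime b a) {q r : ℂ}
    (hq : q ^ a = 1) (hr : r ^ b = 1) :
    Fm (b * a) (q * r) = (Fm a q ⊗ₖ Fm b r).submatrix (Equiv.ofBijective _ (crt_bij ha hb hab))
      (Equiv.ofBijective _ (crt_bij ha hb hab)) := by
  ext x y
  simp only [Fm, Matrix.of_apply, submatrix_apply, Equiv.ofBijective_apply, crt,
    kroneckerMap_apply, mul_pow]
  rw [pow_eq_pow_mod _ hq, pow_eq_pow_mod _ hr, pow_eq_pow_mod (_ % a * _) hq,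
    pow_eq_pow_mod (_ % b * _) hr, ← Nat.mul_mod, ← Nat.mul_mod]

lemma multi_word {φ : ℕ → ℝ} (hφ : Monotone φ) (hφ0 : ∀ k, 0 ≤ φ k)
    (h : ∀ k, MC (CT (Fin k)) (2 ^ k * φ k)) (l : ℕ) (N : ℕ) :
    0 < N → (∀ p n : ℕ, p.Prime → p ^ n ∣ N → p ^ n ≤ 2 ^ l) →
    ∃ (q : ℂ) (k : ℕ), IsPrimitiveRoot q N ∧ 2 ^ k ≤ N ∧
      WordM φ k (20001 * (l + 1) ^ 2) (Fm N q) ∧ WordM φ k (20001 * (l + 1) ^ 2) (Fm N q⁻¹) := by
  induction N using Nat.recOnPrimePow with
  | zero => intro h; omega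
  | one =>
    intro _ _
    have : Fm 1 1 = 1 := by ext i j; rw [Subsingleton.elim i j, Matrix.one_apply_eq]; simp [Fm]
    exact ⟨1, 0, IsPrimitiveRoot.one, le_rfl, this ▸ WordM.one h _, by
      rw [inv_one, this]; exact WordM.one h _⟩
  | prime_pow_mul a p n hp hpa hn ih =>
    intro hN hd
    have ha : 0 < a := Nat.pos_of_mul_pos_left hN
    have hb : 0 < p ^ n := pow_pos hp.pos _
    obtain ⟨q, k, hq, hk, w1, w2⟩ := ih ha fun p' n' hp' hd' => hd p' n' hp' (hd'.mul_left _)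
    have hr := Complex.isPrimitiveRoot_exp (p ^ n) hb.ne'
    generalize Complex.exp (2 * Real.pi * I / ((p ^ n : ℕ) : ℂ)) = r at hr
    have hab : Nat.Coprime (p ^ n) a := ((Nat.Prime.coprime_iff_not_dvd hp).2 hpa).pow_left n
    have hle := hd p n hp (Dvd.intro _ rfl)
    refine ⟨q * r, k + 1, ?_, ?_, ?_, ?_⟩
    · rw [IsPrimitiveRoot.iff_orderOf] at *
      rw [(Commute.all q r).orderOf_mul_eq_mul_orderOf_of_coprime (by rw [hq, hr]; exact hab.symm),
        hq, hr, mul_comm]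
    · have : 2 ≤ p ^ n := hp.two_le.trans (Nat.le_self_pow hn.ne' p)
      rw [pow_succ']; exact Nat.mul_le_mul this hk
    · rw [Fm_crt ha hb hab hq.pow_eq_one hr.pow_eq_one]
      exact (w1.tensor hφ hφ0 (Fm_word hr hb hle)).reindex _
    · rw [mul_inv, Fm_crt ha hb hab hq.inv.pow_eq_one hr.inv.pow_eq_one]
      exact (w2.tensor hφ hφ0 (Fm_word hr.inv hb hle)).reindex _

lemma bluestein {n N : ℕ} (hn : 0 < n) (hN : 2 * n ≤ N) {q : ℂ} (hq : IsPrimitiveRoot q N) {c : ℝ}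
    (h1 : MC (Fm N q) c) (h2 : MC (Fm N q⁻¹) c) :
    MC (Fm n (Complex.exp (2 * Real.pi * Complex.I / n))) (2 * c + 3 * N) := by
  set z := Complex.exp (Real.pi * Complex.I / n) with hz
  have hz0 : z ≠ 0 := Complex.exp_ne_zero _
  have hz2 : Complex.exp (2 * Real.pi * Complex.I / n) = z ^ 2 := by
    rw [hz, ← Complex.exp_nat_mul]; congr 1; push_cast; ring
  obtain ⟨D, hD⟩ := toeplitz_diag hq (by omega) hN (fun u => z ^ (-u ^ 2))
  have hd : ∀ {m : ℕ} (d : Fin m → ℂ), MC (diagonal d) m := fun d => by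
    simpa using MC.of_single (A := diagonal d) d id (fun i j => by simp [Matrix.diagonal_apply])
  have hle : n ≤ N := by omega
  have h3 := ((h2.mul (hd D)).mul h1).submatrix (Fin.castLE hle) (Fin.castLE hle)
    (Fin.castLE_injective hle)
  have h4 := ((hd fun j : Fin n => z ^ ((j : ℕ) ^ 2)).mul h3).mul
    (hd fun j : Fin n => z ^ ((j : ℕ) ^ 2))
  have hle' : (n : ℝ) ≤ N := by exact_mod_cast hle
  refine (congrArg (MC · _) ?_).mp (h4.mono (by linarith))
  ext i j
  rw [Matrix.mul_diagonal, Matrix.diagonal_mul, submatrix_apply, hD _ _ i.2 j.2, hz2, Fm,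
    Matrix.of_apply, ← zpow_natCast, ← zpow_natCast, ← zpow_add₀ hz0, ← zpow_add₀ hz0, ← pow_mul,
    ← zpow_natCast]
  congr 1
  simp only [Fin.val_castLE]
  push_cast; ring

lemma two_pow_le_centralBinom (m : ℕ) : 2 ^ m ≤ m.centralBinom := by
  induction m with
  | zero => simp
  | succ m ih =>
    have := Nat.succ_mul_centralBinom_succ m
    rw [pow_succ]
    by_contra hh
    push Not at hh
    nlinarith

lemma exists_good (n : ℕ) (hn : 0 < n) : ∃ m : ℕ, 0 < m ∧ 2 * n ≤ m.centralBinom ∧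
    m.centralBinom ≤ 8 * n := by
  have hex : ∃ m : ℕ, 2 * n ≤ m.centralBinom :=
    ⟨2 * n, (Nat.lt_two_pow_self).le.trans (two_pow_le_centralBinom _)⟩
  classical
  have h1 := Nat.find_spec hex
  have h0 : Nat.find hex ≠ 0 := fun h => by rw [h] at h1; simp at h1; omega
  obtain ⟨m, hm⟩ := Nat.exists_eq_succ_of_ne_zero h0
  have h2 := Nat.find_min hex (m := m) (by omega)
  rw [hm] at h1
  refine ⟨m + 1, by omega, h1, ?_⟩
  have := Nat.succ_mul_centralBinom_succ m
  by_contra hh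
  push Not at hh h2
  nlinarith

theorem main_bound : ∃ C : ℝ, ∀ n : ℕ, 2 ≤ n →
    MC (Fm n (Complex.exp (2 * Real.pi * Complex.I / n)))
      (C * n * Real.logb 2 n ^ (1 - 1 / 10 ^ 10 : ℝ)) := by
  obtain ⟨B, hB, h⟩ := MC_CT
  have hθ : 0 ≤ θ₀ := by norm_num [θ₀]
  have hφ : Monotone fun k : ℕ => B * ((k : ℝ) + 1) ^ θ₀ := fun a b hab => by
    have : (a : ℝ) ≤ b := by exact_mod_cast hab
    dsimp only
    gcongr
  obtain ⟨ε, hε⟩ : ∃ ε : ℝ, ε = 2 / 10 ^ 11 := ⟨_, rfl⟩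
  have hε0 : 0 < ε := by norm_num [hε]
  refine ⟨8 * (2 * (20001 * (2 * 10 / ε + 2) ^ 2 * (2 + B * 5)) + 3), fun n hn => ?_⟩
  obtain ⟨m, hm, h1, h2⟩ := exists_good n (by omega)
  obtain ⟨q, k, hq, hk, w1, w2⟩ := multi_word hφ (fun k => by positivity) h (Nat.clog 2 (2 * m))
    m.centralBinom (Nat.centralBinom_pos m) (fun p e hp hd => by
      refine le_trans ?_ (Nat.le_pow_clog one_lt_two _)
      refine le_trans (Nat.pow_le_pow_right hp.pos ?_)
        (Nat.pow_factorization_choose_le (p := p) (n := 2 * m) (k := m) (by omega))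
      exact (hp.pow_dvd_iff_le_factorization (Nat.centralBinom_pos m).ne').1 hd)
  refine (bluestein (by omega) h1 hq w1.cost w2.cost).mono ?_
  set x := Real.logb 2 n with hx
  have hn' : (2 : ℝ) ≤ n := by exact_mod_cast hn
  have hx1 : 1 ≤ x := by
    rw [hx, Real.le_logb_iff_rpow_le one_lt_two (by linarith)]; simpa using hn'
  have hlog : ∀ j : ℕ, 2 ^ j ≤ m.centralBinom → (j : ℝ) + 1 ≤ 5 * x := by
    intro j hj
    have : (2 : ℝ) ^ j ≤ 8 * n := by exact_mod_cast hj.trans h2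
    have h3 : (j : ℝ) - 3 ≤ x := by
      rw [hx, Real.le_logb_iff_rpow_le one_lt_two (by linarith), Real.rpow_sub two_pos]
      norm_num
      linarith
    linarith
  have hk' := hlog k hk
  have hm' := hlog m (two_pow_le_centralBinom m)
  have hl : ((Nat.clog 2 (2 * m) : ℕ) : ℝ) + 1 ≤ (2 * 10 / ε + 2) * x ^ ε := by
    have h2 := Nat.pow_pred_clog_lt_self one_lt_two (x := 2 * m) (by omega)
    have h3 : 0 < Nat.clog 2 (2 * m) := Nat.clog_pos one_lt_two (by omega)
    generalize Nat.clog 2 (2 * m) = e at *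
    obtain ⟨e, rfl⟩ : ∃ e', e = e' + 1 := ⟨e - 1, by omega⟩
    rw [Nat.pred_succ] at h2
    have h4 : (2 : ℝ) ^ e ≤ 10 * x := by
      have : (2 : ℝ) ^ e ≤ 2 * m := by exact_mod_cast h2.le
      linarith
    have h5 := Real.log_le_log (by positivity) h4
    rw [Real.log_pow] at h5
    have h6 := Real.log_le_rpow_div (x := 10 * x) (by linarith) hε0
    rw [Real.mul_rpow (by norm_num) (by linarith)] at h6
    have h7 : (10 : ℝ) ^ ε ≤ 10 :=
      (Real.rpow_le_rpow_of_exponent_le (x := 10) (by norm_num)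
        (show ε ≤ 1 by norm_num [hε])).trans_eq (Real.rpow_one _)
    have h8 : 1 ≤ x ^ ε := Real.one_le_rpow hx1 hε0.le
    have h9 : 10 ^ ε * x ^ ε / ε ≤ 10 * x ^ ε / ε := by gcongr
    have h10 := Real.log_two_gt_d9
    have h11 : (e : ℝ) ≤ 2 * (e * Real.log 2) := by
      have : (0 : ℝ) ≤ e := by positivity
      nlinarith
    have h12 : (2 * 10 / ε + 2) * x ^ ε = 2 * (10 * x ^ ε / ε) + 2 * x ^ ε := by ring
    push_cast
    linarith
  have hφk : 2 + B * ((k : ℝ) + 1) ^ θ₀ ≤ (2 + B * 5) * x ^ θ₀ := by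
    have h8 : 1 ≤ x ^ θ₀ := Real.one_le_rpow hx1 hθ
    have h3 : ((k : ℝ) + 1) ^ θ₀ ≤ (5 * x) ^ θ₀ := by gcongr
    rw [Real.mul_rpow (by norm_num) (by linarith)] at h3
    have h7 : (5 : ℝ) ^ θ₀ ≤ 5 :=
      (Real.rpow_le_rpow_of_exponent_le (x := 5) (by norm_num)
        (show θ₀ ≤ 1 by norm_num [θ₀])).trans_eq (Real.rpow_one _)
    have h9 : (5 : ℝ) ^ θ₀ * x ^ θ₀ ≤ 5 * x ^ θ₀ := by gcongr
    nlinarith [mul_le_mul_of_nonneg_left (h3.trans h9) hB]
  have hN : (m.centralBinom : ℝ) ≤ 8 * n := by exact_mod_cast h2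
  have hy : x ^ (1 - 1 / 10 ^ 10 : ℝ) = (x ^ ε) ^ 2 * x ^ θ₀ := by
    rw [← Real.rpow_natCast (x ^ ε), ← Real.rpow_mul (by linarith), ← Real.rpow_add (by linarith)]
    congr 1; norm_num [hε, θ₀]
  have hy1 : 1 ≤ x ^ (1 - 1 / 10 ^ 10 : ℝ) := Real.one_le_rpow hx1 (by norm_num)
  simp only [Fintype.card_fin]
  push_cast
  calc 2 * (20001 * ((Nat.clog 2 (2 * m) : ℝ) + 1) ^ 2 *
        (m.centralBinom * (2 + B * ((k : ℝ) + 1) ^ θ₀))) + 3 * m.centralBinom
      ≤ 2 * (20001 * ((2 * 10 / ε + 2) * x ^ ε) ^ 2 * (8 * n * ((2 + B * 5) * x ^ θ₀)))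
        + 3 * (8 * n * x ^ (1 - 1 / 10 ^ 10 : ℝ)) := by
        gcongr
        nlinarith
    _ = _ := by rw [hy]; ring

end Vale.Agent.P344
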