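import Vale.Agent.P344.Motif

namespace Vale.Agent.P344

open Set Matrix Complex
open scoped Kronecker

def tri {η : Type} (a b c : Matrix η η Z2) : Matrix (η × η × η) (η × η × η) Z2 := a ⊗ₖ (b ⊗ₖ c)

lemma Rk.tri {η : Type} {a b c : Matrix η η Z2} {n m k : ℕ} (ha : Rk a n) (hb : Rk b m)
    (hc : Rk c k) : Rk (tri a b c) (n * (m * k)) := ha.kron (hb.kron hc)

lemma tri_one {η : Type} [DecidableEq η] : tri (1 : Matrix η η Z2) 1 1 = 1 := by
  simp [tri]

lemma tri_ids {η : Type} (e p q r : Matrix η η Z2) :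
    (0 + tri e q r + tri e e e = tri e (e + q) e + tri e q (e + r)) ∧
    (0 + tri (e + p) q r + tri (e + p) e r = tri (e + p) (e + q) r) ∧
    (0 + tri e q r + (tri (e + p) e r + tri p q r) = tri (e + p) (e + q) r) ∧
    (tri (e + p) e r + tri p e r + tri e e e = tri e e (e + r)) ∧
    (tri (e + p) e r + tri p (e + q) r + (tri (e + p) e e + tri p (e + q) e)
      = tri (e + p) e (e + r) + tri p (e + q) (e + r)) ∧
    (tri (e + p) e r + tri p e r + (tri (e + p) e e + tri p (e + q) e + tri p q r)
      = tri (e + p) e (e + r) + tri p (e + q) (e + r)) ∧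
    (tri (e + p) e e + tri p (e + q) e + tri p q e = tri e e e) ∧
    (tri (e + p) e e + tri p (e + q) e + tri p q (e + r) + tri p q r = tri e e e) := by
  refine ⟨?_, ?_, ?_, ?_, ?_, ?_, ?_, ?_⟩ <;>
  · ext ⟨i, j, k⟩ ⟨i', j', k'⟩
    simp only [tri, Matrix.add_apply, kroneckerMap_apply, Matrix.zero_apply]
    generalize e i i' = a1
    generalize e j j' = a2
    generalize e k k' = a3
    generalize p i i' = b1
    generalize q j j' = b2
    generalize r k k' = b3
    revert a1 a2 a3 b1 b2 b3
    decide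

def Φ1 {η : Type} (q r : Matrix η η Z2) : Matrix η η Z2 →+ Matrix (η × η × η) (η × η × η) Z2 where
  toFun M := tri M q r
  map_zero' := by simp [tri]
  map_add' a b := by simp [tri, add_kronecker]

def Φ2 {η : Type} (p r : Matrix η η Z2) : Matrix η η Z2 →+ Matrix (η × η × η) (η × η × η) Z2 where
  toFun M := tri p M r
  map_zero' := by simp [tri]
  map_add' a b := by simp [tri, add_kronecker, kronecker_add]

def Φ3 {η : Type} (p q : Matrix η η Z2) : Matrix η η Z2 →+ Matrix (η × η × η) (η × η × η) Z2 where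
  toFun M := tri p q M
  map_zero' := by simp [tri]
  map_add' a b := by simp [tri, kronecker_add]

lemma comp_neg {G V : Type} [Fintype G] [AddCommGroup V] [Module ℂ V] (a : G → V) :
    Comp (range a) (Fintype.card G) (range (-a)) := by
  have := Comp.iUnion (S := range a) (T := fun g => {(-1 : ℂ) • a g}) (c := fun _ => (1 : ℝ))
    (fun g => Comp.smul_one _ (mem_insert_of_mem _ (mem_range_self _)))
  simp only [Finset.sum_const, Finset.card_univ, nsmul_eq_mul, mul_one] at this
  refine this.mono_right ?_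
  rintro _ ⟨g, rfl⟩
  exact mem_iUnion.2 ⟨g, by simp⟩

lemma sub_vals {ι G V : Type*} {P : ι → G → V} {a : G → V} (i : ι) (h : a = P i) :
    range a ⊆ vals P := h ▸ range_subset_vals P i

namespace Design

variable {𝒮 η : Type} [Fintype 𝒮] [DecidableEq 𝒮] [Fintype η] [DecidableEq η] (D : Design 𝒮 η)
variable {μ β : Type} [Fintype μ] [DecidableEq μ] [Fintype β] [DecidableEq β]
variable {V : Type} [AddCommGroup V] [Module ℂ V]

abbrev Aux := D.Side ⊕ η

lemma vals_st (Ψ : Matrix η η Z2 → Matrix μ μ Z2) (f1 f2 : 𝒮 → Matrix η η Z2) (M : Matrix η η Z2)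
    (x y : 𝒮 → (β × μ → Z2) → V) (A : D.Aux → (β × μ → Z2) → V) :
    vals (phys β (fun i => Ψ (D.st f1 f2 (fun _ => M) (fun _ => M) i))
      (D.st x y (fun p => A (.inl p)) (fun j => A (.inr j)))) =
    vals (phys β (fun S => Ψ (f1 S)) x) ∪ vals (phys β (fun S => Ψ (f2 S)) y) ∪
      vals (phys β (fun _ => Ψ M) A) := by
  simp only [vals, iUnion_sum, union_assoc]
  rfl

lemma pre_post {τ c : ℝ} (hτ : ∀ w : μ → Z2, MC (fr β (vecMulVec w w)) τ)
    {B B' : Matrix μ μ Z2} {n1 n2 : ℕ} (h1 : Rk B n1) (h2 : Rk (B' + 1) n2)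
    (A : D.Aux → (β × μ → Z2) → V) {S T : Set V}
    (h : Comp (S ∪ vals (phys β (fun _ => B) A)) c (T ∪ vals (phys β (fun _ => B') A))) :
    Comp (S ∪ vals A) (Fintype.card D.Aux * (n1 + n2) * τ + c)
      (T ∪ vals (fun i => act (CT (β × μ)) (A i))) := by
  have e0 : vals A = vals (phys β (fun _ => (0 : Matrix μ μ Z2)) A) := by
    congr 1; funext i; simp [phys, fr_zero, act_one]
  have e1 : (fun i => act (CT (β × μ)) (A i)) = phys β (fun _ => (1 : Matrix μ μ Z2)) A := by
    funext i; simp [phys, fr_one]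
  have hB' : B'.IsSymm := by
    have := h2.isSymm.add (isSymm_one (α := Z2) (n := μ))
    rwa [add_assoc, add_self_mat, add_zero] at this
  have m1 := moveAll' hτ (F := fun _ : D.Aux => 0) (F' := fun _ => B) (n := fun _ => n1)
    (fun _ => isSymm_zero) (fun _ => h1.congr (zero_add _).symm rfl) A
  have m2 := moveAll' hτ (F := fun _ : D.Aux => B') (F' := fun _ => 1) (n := fun _ => n2)
    (fun _ => hB') (fun _ => h2) A
  rw [← e0] at m1
  rw [e1]
  have s1 := (m1.mono_left (subset_union_right (s := S))).trans'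
    (h.mono_left (union_subset_union_left _ subset_union_left))
  have s2 := s1.trans_union (m2.mono_left (subset_union_right.trans subset_union_right))
  refine s2.mono (subset_insert _ _) (le_of_eq ?_)
    (union_subset_union_left _ subset_union_left)
  simp only [Finset.sum_const, Finset.card_univ, smul_eq_mul]
  push_cast; ring

lemma stageA {τ : ℝ} (hτ : ∀ w : μ → Z2, MC (fr β (vecMulVec w w)) τ)
    (Φ : Matrix η η Z2 →+ Matrix μ μ Z2) (hΦ : ∀ M n, Rk M n → Rk (Φ M) n)
    (B : Matrix μ μ Z2) {n1 n2 : ℕ} (h1 : Rk B n1) (h2 : Rk (B + Φ 1 + 1) n2)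
    (x y : 𝒮 → (β × μ → Z2) → V) (A : D.Aux → (β × μ → Z2) → V) :
    Comp (vals (phys β (fun _ => B) x) ∪ vals (phys β (fun S => B + Φ (D.Pj S)) y) ∪ vals A)
      (Fintype.card D.Aux * (n1 + n2) * τ + (D.mc * τ + 6 * D.gc (Fintype.card (β × μ → Z2))))
      (vals (phys β (fun S => B + Φ (1 + D.Pj S)) x) ∪
        vals (phys β (fun _ => B + Φ 1) (fun S => y S + x S)) ∪
        vals (fun i => act (CT (β × μ)) (A i))) := by
  apply D.pre_post hτ h1 h2
  have := (D.motif hτ Φ hΦ B h1.isSymm x y (fun p => A (.inl p)) (fun j => A (.inr j))).1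
  rw [D.vals_st (fun M => B + Φ M), D.vals_st (fun M => B + Φ M)] at this
  simpa only [map_zero, add_zero] using this

lemma stageB {τ : ℝ} (hτ : ∀ w : μ → Z2, MC (fr β (vecMulVec w w)) τ)
    (Φ : Matrix η η Z2 →+ Matrix μ μ Z2) (hΦ : ∀ M n, Rk M n → Rk (Φ M) n)
    (B : Matrix μ μ Z2) {n1 n2 : ℕ} (h1 : Rk B n1) (h2 : Rk (B + Φ 1 + 1) n2)
    (x y : 𝒮 → (β × μ → Z2) → V) (A : D.Aux → (β × μ → Z2) → V) :
    Comp (vals (phys β (fun S => B + Φ (D.Pj S)) x) ∪ vals (phys β (fun _ => B) y) ∪ vals A)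
      (Fintype.card D.Aux * (n1 + n2) * τ + (D.mc * τ + 6 * D.gc (Fintype.card (β × μ → Z2))))
      (vals (phys β (fun _ => B + Φ 1) x) ∪
        vals (phys β (fun S => B + Φ (1 + D.Pj S)) (fun S => y S - x S)) ∪
        vals (fun i => act (CT (β × μ)) (A i))) := by
  apply D.pre_post hτ h1 h2
  have := (D.motif hτ Φ hΦ (B + Φ 1) (h1.isSymm.add (hΦ _ _ D.rk0).isSymm) x
    (fun S => y S - x S) (fun p => A (.inl p)) (fun j => A (.inr j))).2
  rw [D.vals_st (fun M => B + Φ 1 + Φ M), D.vals_st (fun M => B + Φ 1 + Φ M)] at this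
  have e1 : B + Φ 1 + Φ 1 = B := by rw [add_assoc, add_self_mat, add_zero]
  have e2 : ∀ S, B + Φ 1 + Φ (1 + D.Pj S) = B + Φ (D.Pj S) := fun S => by
    rw [map_add, ← add_assoc, e1]
  have e3 : ∀ S, B + Φ 1 + Φ (D.Pj S) = B + Φ (1 + D.Pj S) := fun S => by
    rw [map_add, add_assoc]
  simpa only [map_zero, add_zero, e1, e2, e3, sub_add_cancel] using this

/-- the number of wires -/
def W : ℕ := 2 * Fintype.card 𝒮 ^ 3 + 3 * Fintype.card 𝒮 ^ 2 * Fintype.card D.Aux

noncomputable def gconst : ℝ := 18 * Fintype.card 𝒮 ^ 2 * D.gc 1 + Fintype.card 𝒮 ^ 3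

lemma network (hη : 2 ≤ Fintype.card η) {τ : ℝ}
    (hτ : ∀ w : η × η × η → Z2, MC (fr β (vecMulVec w w)) τ)
    (X Y : 𝒮 × 𝒮 × 𝒮 → (β × (η × η × η) → Z2) → V)
    (A1 A2 A3 : (𝒮 × 𝒮) × D.Aux → (β × (η × η × η) → Z2) → V) (S₀ : Set V)
    (hX : vals X ⊆ S₀) (hY : vals Y ⊆ S₀) (hA1 : vals A1 ⊆ S₀) (hA2 : vals A2 ⊆ S₀)
    (hA3 : vals A3 ⊆ S₀) :
    Comp S₀ ((D.W * (Fintype.card η : ℝ) ^ 3 + 6 * Fintype.card 𝒮 ^ 2 * Fintype.card η ^ 2
        - 2 * Fintype.card 𝒮 ^ 3) * τ + D.gconst * Fintype.card (β × (η × η × η) → Z2))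
      (vals (fun s => act (CT _) (X s)) ∪ vals (fun s => act (CT _) (Y s)) ∪
        vals (fun s => act (CT _) (A1 s)) ∪ vals (fun s => act (CT _) (A2 s)) ∪
        vals (fun s => act (CT _) (A3 s))) := by
  obtain ⟨r, hr⟩ : ∃ r, Fintype.card η = r + 2 := ⟨Fintype.card η - 2, by omega⟩
  set P := D.Pj with hP
  have rP : ∀ S, Rk (P S) 1 := fun S => Rk.vec _
  have r1 : Rk (1 : Matrix η η Z2) (r + 2) := hr ▸ D.rk0
  have r2 : ∀ S, Rk (1 + P S) (r + 1) := fun S => (D.rk1 S).congr rfl (by omega)
  have ids := fun s : 𝒮 × 𝒮 × 𝒮 => tri_ids (1 : Matrix η η Z2) (P s.1) (P s.2.1) (P s.2.2)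
  simp only [tri_one] at ids
  set Ps : 𝒮 × 𝒮 × 𝒮 → Matrix (η × η × η) (η × η × η) Z2 :=
    fun s => tri (P s.1) (P s.2.1) (P s.2.2) with hPs
  have sPs : ∀ s, (Ps s).IsSymm := fun s => ((rP _).tri (rP _) (rP _)).isSymm
  obtain ⟨y, hy⟩ : ∃ y : 𝒮 × 𝒮 × 𝒮 → (β × (η × η × η) → Z2) → V,
    ∀ s, y s = act (fr β (Ps s)) (Y s) := ⟨_, fun _ => rfl⟩
  have hy0 : ∀ s, range (act (fr β (Ps s)) (y s)) = range (Y s) := by
    intro s
    obtain ⟨z, hz⟩ := fr_add (β := β) (sPs s) (sPs s)
    rw [add_self_mat, fr_zero] at hz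
    rw [hy, ← act_mul, ← range_act_transl z, ← act_mul, ← hz, act_one]
  set cg := D.mc * τ + 6 * D.gc (Fintype.card (β × (η × η × η) → Z2)) with hcg
  -- stage 1
  have st1 := Comp.iUnion (S := S₀) (fun g : 𝒮 × 𝒮 =>
    (D.stageA hτ (Φ1 (P g.1) (P g.2))
      (fun M n h => (h.tri (rP _) (rP _)).congr rfl (by simp)) 0 Rk.zero
      (((r1.tri (r2 g.1) r1).add (r1.tri (rP g.1) (r2 g.2))).congr
        (ids (g.1, g.1, g.2)).1.symm rfl)
      (fun S => X (S, g)) (fun S => y (S, g)) (fun i => A1 (g, i))).mono_left (S' := S₀) (by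
        refine union_subset (union_subset ?_ ?_) ?_
        · refine iUnion_subset fun S => ?_
          simp only [phys, fr_zero, act_one]
          exact (range_subset_vals X _).trans hX
        · refine iUnion_subset fun S => ?_
          simp only [phys, zero_add]
          exact (hy0 (S, g)).subset.trans ((range_subset_vals Y _).trans hY)
        · exact iUnion_subset fun i => (range_subset_vals A1 _).trans hA1))
  set B2 : 𝒮 × 𝒮 × 𝒮 → Matrix (η × η × η) (η × η × η) Z2 :=
    fun s => tri (1 + P s.1) 1 (P s.2.2) with hB2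
  have mx1 := moveAll' hτ (F := fun s : 𝒮 × 𝒮 × 𝒮 => 0 + tri (1 + P s.1) (P s.2.1) (P s.2.2))
    (F' := B2) (n := fun _ => (r + 1) * ((r + 1) * 1))
    (fun s => isSymm_zero.add ((r2 _).tri (rP _) (rP _)).isSymm)
    (fun s => ((r2 _).tri (r2 _) (rP _)).congr (ids s).2.1.symm rfl) X
  have my1 := moveAll' hτ (F := fun s : 𝒮 × 𝒮 × 𝒮 => 0 + tri 1 (P s.2.1) (P s.2.2))
    (F' := fun s => B2 s + Ps s) (n := fun _ => (r + 1) * ((r + 1) * 1))
    (fun s => isSymm_zero.add (r1.tri (rP _) (rP _)).isSymm)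
    (fun s => ((r2 _).tri (r2 _) (rP _)).congr (ids s).2.2.1.symm rfl) (fun s => y s + X s)
  have c1 := st1.trans_union ((mx1.mono_left (by
      refine subset_union_of_subset_right (iUnion_subset fun s => ?_) _
      refine subset_iUnion_of_subset s.2 ?_
      refine subset_union_of_subset_left (subset_union_of_subset_left ?_ _) _
      exact sub_vals s.1 rfl)).union (my1.mono_left (by
      refine subset_union_of_subset_right (iUnion_subset fun s => ?_) _
      refine subset_iUnion_of_subset s.2 ?_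
      refine subset_union_of_subset_left (subset_union_of_subset_right ?_ _) _
      exact sub_vals s.1 rfl)))
  -- stage 2
  have st2 := c1.trans_union (Comp.iUnion (fun g : 𝒮 × 𝒮 =>
    (D.stageB hτ (Φ2 (P g.1) (P g.2))
      (fun M n h => ((rP _).tri h (rP _)).congr rfl (by simp)) (tri (1 + P g.1) 1 (P g.2))
      ((r2 g.1).tri r1 (rP g.2))
      ((r1.tri r1 (r2 g.2)).congr (ids (g.1, g.1, g.2)).2.2.2.1.symm rfl)
      (fun S => y (g.1, S, g.2) + X (g.1, S, g.2)) (fun S => X (g.1, S, g.2))
      (fun i => A2 (g, i))).mono_left (by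
        refine union_subset (union_subset ?_ ?_) ?_
        · refine iUnion_subset fun S => ?_
          refine subset_union_of_subset_right (subset_union_of_subset_right
            (subset_union_of_subset_right ?_ _) _) _
          exact sub_vals (g.1, S, g.2) rfl
        · refine iUnion_subset fun S => ?_
          refine subset_union_of_subset_right (subset_union_of_subset_right
            (subset_union_of_subset_left ?_ _) _) _
          exact sub_vals (g.1, S, g.2) rfl
        · exact subset_union_of_subset_left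
            (iUnion_subset fun i => (range_subset_vals A2 _).trans hA2) _)))
  set B3 : 𝒮 × 𝒮 × 𝒮 → Matrix (η × η × η) (η × η × η) Z2 :=
    fun s => tri (1 + P s.1) 1 1 + tri (P s.1) (1 + P s.2.1) 1 with hB3
  have mx2 := moveAll' hτ
    (F := fun s : 𝒮 × 𝒮 × 𝒮 => B2 s + tri (P s.1) (1 + P s.2.1) (P s.2.2))
    (F' := B3) (n := fun _ => (r + 1) * ((r + 2) * (r + 1)) + 1 * ((r + 1) * (r + 1)))
    (fun s => ((r2 _).tri r1 (rP _)).isSymm.add ((rP _).tri (r2 _) (rP _)).isSymm)
    (fun s => (((r2 _).tri r1 (r2 _)).add ((rP _).tri (r2 _) (r2 _))).congr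
      (ids s).2.2.2.2.1.symm rfl) (fun s => X s - (y s + X s))
  have my2 := moveAll' hτ
    (F := fun s : 𝒮 × 𝒮 × 𝒮 => B2 s + tri (P s.1) 1 (P s.2.2))
    (F' := fun s => B3 s + Ps s)
    (n := fun _ => (r + 1) * ((r + 2) * (r + 1)) + 1 * ((r + 1) * (r + 1)))
    (fun s => ((r2 _).tri r1 (rP _)).isSymm.add ((rP _).tri r1 (rP _)).isSymm)
    (fun s => (((r2 _).tri r1 (r2 _)).add ((rP _).tri (r2 _) (r2 _))).congr
      (ids s).2.2.2.2.2.1.symm rfl) (fun s => y s + X s)
  have c2 := st2.trans_union ((mx2.mono_left (by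
      refine subset_union_of_subset_right (subset_union_of_subset_right
        (iUnion_subset fun s => ?_) _) _
      refine subset_iUnion_of_subset (s.1, s.2.2) ?_
      refine subset_union_of_subset_left (subset_union_of_subset_right ?_ _) _
      exact sub_vals s.2.1 rfl)).union (my2.mono_left (by
      refine subset_union_of_subset_right (subset_union_of_subset_right
        (iUnion_subset fun s => ?_) _) _
      refine subset_iUnion_of_subset (s.1, s.2.2) ?_
      refine subset_union_of_subset_left (subset_union_of_subset_left ?_ _) _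
      exact sub_vals s.2.1 rfl)))
  -- stage 3
  have st3 := c2.trans_union (Comp.iUnion (fun g : 𝒮 × 𝒮 =>
    (D.stageA hτ (Φ3 (P g.1) (P g.2))
      (fun M n h => ((rP _).tri (rP _) h).congr rfl (by simp))
      (tri (1 + P g.1) 1 1 + tri (P g.1) (1 + P g.2) 1)
      (((r2 g.1).tri r1 r1).add ((rP g.1).tri (r2 g.2) r1))
      (Rk.zero.congr (by
        change _ = _ + tri (P g.1) (P g.2) 1 + 1
        rw [(ids (g.1, g.2, g.1)).2.2.2.2.2.2.1, add_self_mat]) rfl)
      (fun S => X (g.1, g.2, S) - (y (g.1, g.2, S) + X (g.1, g.2, S)))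
      (fun S => y (g.1, g.2, S) + X (g.1, g.2, S))
      (fun i => A3 (g, i))).mono_left (by
        refine union_subset (union_subset ?_ ?_) ?_
        · refine iUnion_subset fun S => ?_
          refine subset_union_of_subset_right (subset_union_of_subset_right
            (subset_union_of_subset_left ?_ _) _) _
          exact sub_vals (g.1, g.2, S) rfl
        · refine iUnion_subset fun S => ?_
          refine subset_union_of_subset_right (subset_union_of_subset_right
            (subset_union_of_subset_right ?_ _) _) _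
          exact sub_vals (g.1, g.2, S) rfl
        · exact subset_union_of_subset_left
            (iUnion_subset fun i => (range_subset_vals A3 _).trans hA3) _)))
  -- final negation
  have fin := st3.trans_union (Comp.iUnion (fun s : 𝒮 × 𝒮 × 𝒮 =>
    (comp_neg (act (fr β (B3 s + tri (P s.1) (P s.2.1) (1 + P s.2.2)))
      (X s - (y s + X s)))).mono_left (by
        refine subset_union_of_subset_right (subset_union_of_subset_right ?_ _) _
        refine subset_iUnion_of_subset (s.1, s.2.1) ?_
        refine subset_union_of_subset_left (subset_union_of_subset_left ?_ _) _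
        exact sub_vals s.2.2 rfl)))
  refine fin.mono (subset_insert _ _) (le_of_eq ?_) ?_
  · simp only [Finset.sum_const, Finset.card_univ, smul_eq_mul, nsmul_eq_mul, Fintype.card_prod,
      hcg, mc, W, gconst, gc, Fintype.card_sum, hr]
    have e1 : r + 2 - 1 = r + 1 := rfl
    have e2 : r + 2 - 2 = r := rfl
    rw [e1, e2]
    push_cast
    ring
  · refine union_subset (union_subset (union_subset (union_subset ?_ ?_) ?_) ?_) ?_
    · refine iUnion_subset fun s => ?_
      refine subset_union_of_subset_left (subset_union_of_subset_right ?_ _) _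
      refine subset_iUnion_of_subset (s.1, s.2.1) ?_
      refine subset_union_of_subset_left (subset_union_of_subset_right
          (sub_vals s.2.2 ?_) _) _
      change _ = act (fr β (_ + tri (P s.1) (P s.2.1) 1)) _
      rw [(ids s).2.2.2.2.2.2.1, fr_one]
      congr 1
      simp
    · refine iUnion_subset fun s => ?_
      refine subset_union_of_subset_right (subset_iUnion_of_subset s (le_of_eq ?_)) _
      have hs : (B3 s + tri (P s.1) (P s.2.1) (1 + P s.2.2)).IsSymm :=
        (((r2 _).tri r1 r1).isSymm.add ((rP _).tri (r2 _) r1).isSymm).add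
          ((rP _).tri (rP _) (r2 _)).isSymm
      obtain ⟨z, hz⟩ := fr_add (β := β) hs (sPs s)
      have e : B3 s + tri (P s.1) (P s.2.1) (1 + P s.2.2) + Ps s = 1 := (ids s).2.2.2.2.2.2.2
      rw [e, fr_one] at hz
      have e' : X s - (y s + X s) = (-1 : ℂ) • y s := by simp
      beta_reduce
      rw [hz, act_mul, range_act_transl, act_mul, ← hy, e', act_smul]
      simp
    · refine iUnion_subset fun s => ?_
      refine subset_union_of_subset_left (subset_union_of_subset_left
        (subset_union_of_subset_left (subset_union_of_subset_left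
        (subset_union_of_subset_left ?_ _) _) _) _) _
      refine subset_iUnion_of_subset s.1 ?_
      refine subset_union_of_subset_right ?_ _
      exact sub_vals s.2 rfl
    · refine iUnion_subset fun s => ?_
      refine subset_union_of_subset_left (subset_union_of_subset_left
        (subset_union_of_subset_left (subset_union_of_subset_right ?_ _) _) _) _
      refine subset_iUnion_of_subset s.1 ?_
      refine subset_union_of_subset_right ?_ _
      exact sub_vals s.2 rfl
    · refine iUnion_subset fun s => ?_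
      refine subset_union_of_subset_left (subset_union_of_subset_right ?_ _) _
      refine subset_iUnion_of_subset s.1 ?_
      refine subset_union_of_subset_right ?_ _
      exact sub_vals s.2 rfl

end Design

end Vale.Agent.P344
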