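import Vale.Agent.P344.Shear

namespace Vale.Agent.P344

open Set Matrix Complex

noncomputable def Nq (q : ℂ) (l : ℕ) (x : ℂ) : ℂ := ∏ m ∈ Finset.range l, (x - q ^ m)

noncomputable def Lm (n : ℕ) (q : ℂ) : Matrix (Fin n) (Fin n) ℂ :=
  Matrix.of fun i l => Nq q l (q ^ (i : ℕ))

def Dist (q : ℂ) (n : ℕ) : Prop := ∀ i < n, ∀ j < n, q ^ i = q ^ j → i = j

lemma Dist.mono {q : ℂ} {n m : ℕ} (h : Dist q n) (hm : m ≤ n) : Dist q m :=
  fun i hi j hj => h i (by omega) j (by omega)

lemma Nq_zero_of_lt (q : ℂ) {l i : ℕ} (h : i < l) : Nq q l (q ^ i) = 0 :=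
  Finset.prod_eq_zero (Finset.mem_range.2 h) (sub_self _)

lemma Nq_ne {q : ℂ} {n l i : ℕ} (h : Dist q n) (hl : l ≤ i) (hi : i < n) : Nq q l (q ^ i) ≠ 0 := by
  refine Finset.prod_ne_zero_iff.2 fun m hm => sub_ne_zero.2 fun e => ?_
  have := Finset.mem_range.1 hm
  have := h i hi m (by omega) e
  omega

lemma Nq_succ (q : ℂ) (l : ℕ) (x : ℂ) : Nq q (l + 1) x = Nq q l x * (x - q ^ l) :=
  Finset.prod_range_succ _ _

lemma Nq_add (q : ℂ) (a l : ℕ) (x : ℂ) :
    Nq q (a + l) (q ^ a * x) = Nq q a (q ^ a * x) * Nq q l x * (q ^ a) ^ l := by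
  induction l with
  | zero => simp [Nq]
  | succ l ih => rw [← add_assoc, Nq_succ, ih, Nq_succ]; ring

lemma Nq_succ' (q : ℂ) (l : ℕ) (x : ℂ) : Nq q (l + 1) (q * x) = (q * x - 1) * Nq q l x * q ^ l := by
  have := Nq_add q 1 l x
  rw [add_comm, pow_one] at this
  rw [this]; simp [Nq]

lemma newton_expand {q : ℂ} {n : ℕ} (hq : q ≠ 0) (h : Dist q n) (x : ℂ) (j : ℕ) (hj : j < n) :
    x ^ j = ∑ l ∈ Finset.range (j + 1), Nq q l (q ^ j) / Nq q l (q ^ l) * Nq q l x := by
  induction j with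
  | zero => simp [Nq]
  | succ j ih =>
    have pascal : ∀ l ∈ Finset.range (j + 1),
        Nq q (l + 1) (q ^ (j + 1)) / Nq q (l + 1) (q ^ (l + 1)) * Nq q (l + 1) x =
        Nq q l (q ^ j) / Nq q l (q ^ l) * Nq q (l + 1) x +
          q ^ (l + 1) * (Nq q (l + 1) (q ^ j) / Nq q (l + 1) (q ^ (l + 1)) * Nq q (l + 1) x) := by
      intro l hl
      have hl := Finset.mem_range.1 hl
      have h1 := Nq_ne h (le_refl (l + 1)) (by omega)
      have h2 := Nq_ne h (le_refl l) (by omega)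
      rw [pow_succ' q l, Nq_succ'] at h1
      have h3 : q * q ^ l - 1 ≠ 0 := left_ne_zero_of_mul (left_ne_zero_of_mul h1)
      rw [pow_succ' q l, pow_succ' q j, Nq_succ', Nq_succ', Nq_succ q l (q ^ j)]
      field_simp
      ring
    rw [Finset.sum_range_succ', Finset.sum_congr rfl pascal, Finset.sum_add_distrib, pow_succ,
      ih (by omega), Finset.sum_mul]
    have e : ∑ l ∈ Finset.range (j + 1), q ^ (l + 1) *
        (Nq q (l + 1) (q ^ j) / Nq q (l + 1) (q ^ (l + 1)) * Nq q (l + 1) x) +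
        Nq q 0 (q ^ (j + 1)) / Nq q 0 (q ^ 0) * Nq q 0 x =
        ∑ l ∈ Finset.range (j + 1), q ^ l * (Nq q l (q ^ j) / Nq q l (q ^ l) * Nq q l x) := by
      have := Finset.sum_range_succ' (fun l => q ^ l *
        (Nq q l (q ^ j) / Nq q l (q ^ l) * Nq q l x)) (j + 1)
      rw [Finset.sum_range_succ, Nq_zero_of_lt q (Nat.lt_succ_self j)] at this
      simp only [zero_div, zero_mul, mul_zero, add_zero] at this
      rw [this]; simp [Nq]
    rw [add_assoc, e, ← Finset.sum_add_distrib]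
    refine Finset.sum_congr rfl fun l _ => ?_
    rw [Nq_succ]; ring

lemma Fm_LDL {q : ℂ} {n : ℕ} (hq : q ≠ 0) (h : Dist q n) :
    Fm n q = Lm n q * diagonal (fun l : Fin n => (Nq q l (q ^ (l : ℕ)))⁻¹) * (Lm n q)ᵀ := by
  ext i j
  rw [Matrix.mul_apply]
  simp only [Matrix.mul_diagonal, Fm, Lm, Matrix.of_apply, transpose_apply]
  rw [pow_mul, newton_expand hq h _ j j.2, Fin.sum_univ_eq_sum_range
    (fun l => Nq q l (q ^ (i : ℕ)) * (Nq q l (q ^ l))⁻¹ * Nq q l (q ^ (j : ℕ)))]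
  rw [← Finset.sum_subset (Finset.range_subset_range.2 (show (j : ℕ) + 1 ≤ n from j.2))]
  · exact Finset.sum_congr rfl fun l _ => by ring
  · intro l _ hl
    rw [Nq_zero_of_lt q (i := j) (by simpa using hl), mul_zero]

lemma lagrange_extrap {q : ℂ} {a l : ℕ} (h : Dist q a) (hl : l < a) {x : ℂ}
    (hx : ∀ j < a, x ≠ q ^ j) :
    Nq q l x = Nq q a x * ∑ j ∈ Finset.range a,
      Lagrange.nodalWeight (Finset.range a) (fun m => q ^ m) j * (x - q ^ j)⁻¹ * Nq q l (q ^ j) := by
  have hinj : Set.InjOn (fun m => q ^ m) (Finset.range a) := fun i hi j hj e =>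
    h i (by simpa using hi) j (by simpa using hj) e
  have h1 := Lagrange.eq_interpolate (f := Lagrange.nodal (Finset.range l) (fun m => q ^ m)) hinj
    (by rw [Lagrange.degree_nodal]; simpa using hl)
  have h2 := congrArg (Polynomial.eval x) h1
  rw [Lagrange.eval_interpolate_not_at_node _ (fun j hj => hx j (Finset.mem_range.1 hj))] at h2
  simp only [Lagrange.eval_nodal] at h2
  exact h2

lemma Lm_step {q : ℂ} {a b l T : ℕ} (hq : q ≠ 0) (h : Dist q (a + b)) (hl : a + b ≤ 2 ^ l)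
    (h1 : Word T (Lm a q)) (h2 : Word T (Lm b q)) :
    Word (T + 144 * (32 * l + 32) + 3) (Lm (a + b) q) := by
  set e : Fin a → ℂ := fun j =>
    Lagrange.nodalWeight (Finset.range a) (fun m => q ^ m) j * (q ^ (j : ℕ))⁻¹ with he
  have hinj : Set.InjOn (fun m => q ^ m) (Finset.range a) := fun i hi j hj e =>
    h i (by simp at hi; omega) j (by simp at hj; omega) e
  have he0 : ∀ j, e j ≠ 0 := fun j => mul_ne_zero
    (Lagrange.nodalWeight_ne_zero hinj (by simp)) (inv_ne_zero (pow_ne_zero _ hq))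
  set Tp : Matrix (Fin b) (Fin a) ℂ :=
    Matrix.of fun i j => (q ^ (((a + i : ℕ) : ℤ) - (j : ℕ)) - 1)⁻¹ with hTp
  have w1 : Word (144 * (32 * l + 32)) (fromBlocks 1 0 Tp 1) := by
    refine ((toeplitz_shear (n₁ := a) hl (fun u => (q ^ u - 1)⁻¹)).reindex finSumFinEquiv).congr ?_
    ext (i | i) (j | j)
    · have : ¬ a ≤ i := by omega
      simp [Matrix.one_apply, this]
    · have : ¬ a ≤ i := by omega
      have h' : Fin.castAdd b i ≠ Fin.natAdd a j := fun hh => by
        have := congrArg Fin.val hh; simp at this; omega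
      simp [this, h']
    · have h' : Fin.natAdd a i ≠ Fin.castAdd b j := fun hh => by
        have := congrArg Fin.val hh; simp at this; omega
      simp [h', hTp]
    · simp [Matrix.one_apply]
  have w2 := ((Word.diag (fun j => (e j)⁻¹)).sum
    (Word.diag (fun i : Fin b => Nq q a (q ^ a * q ^ (i : ℕ))))).mul (w1.mul
      (((Word.diag e).mul h1).sum ((h2.mul (Word.diag fun i : Fin b => (q ^ a) ^ (i : ℕ))).pad
        (by omega))))
  refine Word.of_reindex finSumFinEquiv ((w2.congr ?_).pad (by omega))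
  simp only [fromBlocks_multiply, Matrix.mul_zero, Matrix.zero_mul, add_zero, zero_add,
    Matrix.one_mul]
  ext (i | i) (j | j)
  · simp [Lm, he0]
  · simp only [Lm, fromBlocks_apply₁₂, Matrix.zero_apply, submatrix_apply,
      finSumFinEquiv_apply_left, finSumFinEquiv_apply_right, Matrix.of_apply, Fin.val_castAdd,
      Fin.val_natAdd]
    rw [Nq_zero_of_lt q (by omega)]
  · simp only [Lm, fromBlocks_apply₂₁, submatrix_apply, finSumFinEquiv_apply_left,
      finSumFinEquiv_apply_right, Matrix.of_apply, Fin.val_castAdd, Fin.val_natAdd,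
      Matrix.diagonal_mul]
    rw [lagrange_extrap (x := q ^ (a + i)) (h.mono (Nat.le_add_right a b)) j.2
      (fun m hm hh => by have := h _ (by omega) _ (by omega) hh; omega), ← pow_add,
      Matrix.mul_apply, ← Fin.sum_univ_eq_sum_range (fun m =>
        Lagrange.nodalWeight (Finset.range a) (fun m => q ^ m) m * (q ^ (a + i) - q ^ m)⁻¹ *
          Nq q j (q ^ m))]
    congr 1
    refine Finset.sum_congr rfl fun m _ => ?_
    simp only [Matrix.diagonal_mul, hTp, he, Matrix.of_apply]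
    rw [zpow_sub₀ hq, zpow_natCast, zpow_natCast]
    have h3 : q ^ (a + i) - q ^ (m : ℕ) ≠ 0 := sub_ne_zero.2 fun hh => by
      have := h _ (by omega) _ (by omega) hh; omega
    have h4 : q ^ (m : ℕ) ≠ 0 := pow_ne_zero _ hq
    field_simp
  · simp only [Lm, fromBlocks_apply₂₂, submatrix_apply,
      finSumFinEquiv_apply_right, Matrix.of_apply, Fin.val_natAdd,
      Matrix.diagonal_mul, Matrix.mul_diagonal]
    rw [pow_add, Nq_add]; ring

lemma Lm_word {q : ℂ} (hq : q ≠ 0) (l : ℕ) : ∀ n, n ≤ 2 ^ l → Dist q n →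
    Word (10000 * (l + 1) ^ 2) (Lm n q) := by
  induction l with
  | zero =>
    intro n hn _
    refine (Word.one _).congr ?_
    ext i j
    have hi : (i : ℕ) = 0 := by have := i.2; omega
    have hj : (j : ℕ) = 0 := by have := j.2; omega
    obtain rfl : i = j := Fin.ext (by omega)
    simp [Lm, hi, Nq]
  | succ l ih =>
    intro n hn h
    obtain ⟨a, b, rfl, ha, hb⟩ : ∃ a b, n = a + b ∧ a ≤ 2 ^ l ∧ b ≤ 2 ^ l :=
      ⟨n / 2, n - n / 2, by omega, by rw [pow_succ] at hn; omega, by rw [pow_succ] at hn; omega⟩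
    refine (Lm_step hq h hn (ih a ha (h.mono (by omega))) (ih b hb (h.mono (by omega)))).pad ?_
    nlinarith

theorem Fm_word {q : ℂ} {n l : ℕ} (hq : IsPrimitiveRoot q n) (hn : 0 < n) (hl : n ≤ 2 ^ l) :
    Word (20001 * (l + 1) ^ 2) (Fm n q) := by
  have hq0 := hq.ne_zero hn.ne'
  have h : Dist q n := fun i hi j hj e => hq.pow_inj hi hj e
  rw [Fm_LDL hq0 h]
  have w := Lm_word hq0 l n hl h
  refine ((w.mul (Word.diag _)).mul w.transpose).pad ?_
  have : 0 < (l + 1) ^ 2 := by positivity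
  omega

end Vale.Agent.P344
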