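import Vale.Agent.P344.Word

namespace Vale.Agent.P344

open Set Matrix Complex

lemma geom_orth {N : ℕ} {q : ℂ} (hq : IsPrimitiveRoot q N) (hN : 0 < N) (d : ℤ) :
    ∑ z : Fin N, (q ^ d) ^ (z : ℕ) = if (N : ℤ) ∣ d then (N : ℂ) else 0 := by
  split_ifs with h
  · rw [(hq.zpow_eq_one_iff_dvd d).2 h]; simp
  · have h1 : q ^ d ≠ 1 := fun e => h ((hq.zpow_eq_one_iff_dvd d).1 e)
    rw [Fin.sum_univ_eq_sum_range (fun z => (q ^ d) ^ z), geom_sum_eq h1, ← zpow_natCast,
      ← _root_.zpow_mul, mul_comm, _root_.zpow_mul, zpow_natCast, hq.pow_eq_one]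
    simp

lemma Fm_mul_inv {N : ℕ} {q : ℂ} (hq : IsPrimitiveRoot q N) (hN : 0 < N) :
    Fm N q * Fm N q⁻¹ = (N : ℂ) • (1 : Matrix _ _ ℂ) := by
  have hq0 : q ≠ 0 := hq.ne_zero hN.ne'
  ext a b
  have := geom_orth hq hN ((a : ℤ) - b)
  simp only [Fm, Matrix.mul_apply, Matrix.of_apply, Matrix.smul_apply, Matrix.one_apply,
    smul_eq_mul]
  have e : ∀ z : Fin N, q ^ ((a : ℕ) * (z : ℕ)) * q⁻¹ ^ ((z : ℕ) * (b : ℕ)) =
      (q ^ ((a : ℤ) - b)) ^ (z : ℕ) := by
    intro z
    rw [zpow_sub₀ hq0, div_pow, zpow_natCast, zpow_natCast, ← pow_mul, ← pow_mul, inv_pow,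
      mul_comm (z : ℕ), div_eq_mul_inv]
  simp only [e, this]
  by_cases h : a = b
  · simp [h]
  · rw [if_neg, if_neg h, mul_zero]
    intro hd
    have := Int.eq_zero_of_abs_lt_dvd hd (by rw [abs_lt]; constructor <;> omega)
    exact h (Fin.ext (by omega))

lemma toeplitz_diag {N b : ℕ} {q : ℂ} (hq : IsPrimitiveRoot q N) (hN : 0 < N) (hb : 2 * b ≤ N)
    (t : ℤ → ℂ) : ∃ D : Fin N → ℂ, ∀ x y : Fin N, (x : ℕ) < b → (y : ℕ) < b →
      (Fm N q⁻¹ * diagonal D * Fm N q) x y = t ((x : ℤ) - y) := by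
  have hq0 : q ≠ 0 := hq.ne_zero hN.ne'
  refine ⟨fun z => (N : ℂ)⁻¹ * ∑ u ∈ Finset.Ioo (-(b : ℤ)) b, t u * (q ^ u) ^ (z : ℕ),
    fun x y hx hy => ?_⟩
  rw [Matrix.mul_apply]
  simp only [Matrix.mul_diagonal, Fm, Matrix.of_apply, Finset.mul_sum, Finset.sum_mul]
  rw [Finset.sum_comm]
  have e : ∀ (u : ℤ) (z : Fin N), q⁻¹ ^ ((x : ℕ) * (z : ℕ)) * ((N : ℂ)⁻¹ * (t u * (q ^ u) ^ (z : ℕ)))
      * q ^ ((z : ℕ) * (y : ℕ)) = (N : ℂ)⁻¹ * t u * (q ^ (u + y - x)) ^ (z : ℕ) := by
    intro u z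
    rw [zpow_sub₀ hq0, zpow_add₀ hq0, div_pow, mul_pow, zpow_natCast, zpow_natCast, ← pow_mul,
      ← pow_mul, inv_pow, mul_comm (z : ℕ), div_eq_mul_inv]
    ring
  simp only [e, ← Finset.mul_sum, geom_orth hq hN]
  rw [Finset.sum_eq_single ((x : ℤ) - y)]
  · have : (N : ℂ) ≠ 0 := by exact_mod_cast hN.ne'
    simp; field_simp
  · intro u hu hne
    rw [Finset.mem_Ioo] at hu
    rw [if_neg, mul_zero]
    intro hd
    have := Int.eq_zero_of_abs_lt_dvd hd (by rw [abs_lt]; constructor <;> omega)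
    omega
  · intro h
    exact absurd (Finset.mem_Ioo.2 (by constructor <;> omega)) h

def evenOdd (M : ℕ) : Fin M ⊕ Fin M → Fin (M + M) :=
  Sum.elim (fun k => ⟨2 * k, by omega⟩) (fun k => ⟨2 * k + 1, by omega⟩)

lemma evenOdd_bij (M : ℕ) : Function.Bijective (evenOdd M) := by
  rw [Fintype.bijective_iff_injective_and_card]
  refine ⟨?_, by simp⟩
  rintro (a | a) (b | b) h <;> simp only [evenOdd, Sum.elim_inl, Sum.elim_inr, Fin.mk.injEq] at h
  · congr 1; exact Fin.ext (by omega)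
  · omega
  · omega
  · congr 1; exact Fin.ext (by omega)

lemma fft_step {M T : ℕ} {q : ℂ} (hq : q ^ M = -1) (h : Word T (Fm M (q ^ 2))) :
    Word (T + 2) (Fm (M + M) q) := by
  refine Word.of_reindex2 finSumFinEquiv (Equiv.ofBijective _ (evenOdd_bij M)) ?_
  refine (Word.cons (letterH (fun _ => 1) (fun _ => 1) (fun _ => 1) (fun j : Fin M => q ^ (j : ℕ)))
    (h.sum h)).congr ?_
  have h2 : ∀ k : ℕ, q ^ (M * (2 * k)) = 1 := fun k => by
    rw [pow_mul, hq, pow_mul]; simp
  rw [fromBlocks_multiply]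
  ext (i | i) (j | j) <;>
    simp only [Fm, evenOdd, Matrix.mul_zero, add_zero, zero_add, fromBlocks_apply₁₁,
      fromBlocks_apply₁₂, fromBlocks_apply₂₁, fromBlocks_apply₂₂, Matrix.diagonal_mul,
      Matrix.of_apply, submatrix_apply, finSumFinEquiv_apply_left, finSumFinEquiv_apply_right,
      Equiv.ofBijective_apply, Sum.elim_inl, Sum.elim_inr, Fin.val_castAdd, Fin.val_natAdd,
      ← pow_mul]
  · ring
  · ring
  · rw [add_mul, pow_add, h2]; ring
  · rw [add_mul, pow_add, mul_add M, pow_add, h2, mul_one, hq]; ring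

lemma fft2 (e : ℕ) : ∀ {q : ℂ}, IsPrimitiveRoot q (2 ^ e) → Word (2 * e) (Fm (2 ^ e) q) := by
  induction e with
  | zero =>
    intro q _
    refine Word.nil.congr ?_
    ext i j
    obtain rfl : i = j := Subsingleton.elim (α := Fin 1) i j
    have : (i : ℕ) = 0 := by have := i.2; omega
    simp [Fm, this]
  | succ e ih =>
    intro q hq
    have h1 : IsPrimitiveRoot (q ^ 2) (2 ^ e) := hq.pow (by positivity) (by rw [pow_succ'])
    have h2 : IsPrimitiveRoot (q ^ 2 ^ e) 2 := hq.pow (by positivity) (by rw [pow_succ])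
    have := fft_step (h2.eq_neg_one_of_two_right) (ih h1)
    rw [pow_succ, mul_two (2 ^ e)]
    exact this

section
variable {ι κ : Type} [Fintype ι] [DecidableEq ι] [Fintype κ] [DecidableEq κ]

lemma dirty2 {T : ℕ} {E : Matrix ι κ ℂ} {R : Matrix κ ι ℂ} (hE : IsMatch E) (hR : IsMatch R)
    (hER : E * R = 0) {F F' : Matrix ι ι ℂ} {c : ℂ} (hc : c ≠ 0)
    (h1 : F * F' = c • (1 : Matrix ι ι ℂ)) (h2 : F' * F = c • (1 : Matrix ι ι ℂ))
    (wF : Word T F) (wF' : Word T F') (D : ι → ℂ) :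
    Word (16 * T + 32) (fromBlocks (1 : Matrix ι ι ℂ) 0 0 (1 + R * (F' * diagonal D * F) * E)) := by
  classical
  have key : ∀ D : ι → ℂ, (∀ i, D i ≠ 0) → Word (4 * (T + 1 + T) + 12)
      (fromBlocks (1 : Matrix ι ι ℂ) 0 0 (1 + R * (F' * diagonal D * F) * E)) := by
    intro D hD
    refine dirty hE hR hER (G' := F' * diagonal (fun i => (c * c * D i)⁻¹) * F) ?_
      ((wF'.mul (Word.diag _)).mul wF) ((wF'.mul (Word.diag _)).mul wF)
    have : diagonal (fun i => (c * c * D i)⁻¹) * (c • (1 : Matrix ι ι ℂ)) * diagonal D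
        = c⁻¹ • (1 : Matrix ι ι ℂ) := by
      rw [Matrix.mul_smul, Matrix.mul_one, Matrix.smul_mul, diagonal_mul_diagonal,
        ← diagonal_one, ← diagonal_smul, ← diagonal_smul]
      congr 1; funext i; have := hD i; simp; field_simp
    calc F' * diagonal (fun i => (c * c * D i)⁻¹) * F * (F' * diagonal D * F)
        = F' * (diagonal (fun i => (c * c * D i)⁻¹) * (F * F') * diagonal D) * F := by
          simp only [Matrix.mul_assoc]
      _ = 1 := by
          rw [h1, this, Matrix.mul_smul, Matrix.mul_one, Matrix.smul_mul, h2, smul_smul,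
            inv_mul_cancel₀ hc, one_smul]
  set D2 : ι → ℂ := fun i => if D i = 1 then -1 else 1 with hD2
  have w1 := key (fun i => D i - D2 i) (fun i => by
    simp only [hD2]; split_ifs with h
    · rw [h]; norm_num
    · exact sub_ne_zero.2 h)
  have w2 := key D2 (fun i => by simp only [hD2]; split_ifs <;> norm_num)
  refine ((w1.mul w2).congr ?_).pad (by omega)
  have e1 : diagonal D = diagonal (fun i => D i - D2 i) + diagonal D2 := by
    rw [diagonal_add]; simp
  have e2 : ∀ A B : Matrix ι ι ℂ, R * A * E * (R * B * E) = 0 := fun A B => by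
    calc R * A * E * (R * B * E) = R * A * (E * R) * B * E := by simp only [Matrix.mul_assoc]
      _ = 0 := by simp [hER]
  rw [fromBlocks_multiply, e1]
  simp only [Matrix.mul_zero, Matrix.zero_mul, add_zero, zero_add, Matrix.mul_one, Matrix.add_mul,
    Matrix.mul_add, Matrix.one_mul, e2]
  congr 1; abel

end

lemma card_div_le (n b p : ℕ) (hb : 0 < b) :
    (Finset.univ.filter fun i : Fin n => (i : ℕ) / b = p).card ≤ b := by
  refine le_trans ?_ (Finset.card_range b).le
  apply Finset.card_le_card_of_injOn (fun i : Fin n => (i : ℕ) % b)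
  · intro i _; simpa using Nat.mod_lt _ hb
  · intro i hi j hj h
    simp only [Finset.coe_filter, Finset.mem_univ, true_and, mem_setOf_eq] at hi hj h
    apply Fin.ext
    rw [← Nat.div_add_mod i b, ← Nat.div_add_mod j b, hi, hj, h]

lemma block_shear {n n₁ b e : ℕ} (hb : 0 < b) (h1 : 2 * b ≤ 2 ^ e) (h2 : 2 ^ e + 2 * b ≤ n)
    (t : ℤ → ℂ) (p r : ℕ) :
    Word (32 * e + 32) (1 + Matrix.of fun i j : Fin n =>
      if (n₁ ≤ i ∧ (i : ℕ) / b = p) ∧ ((j : ℕ) < n₁ ∧ (j : ℕ) / b = r) then t ((i : ℤ) - j)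
      else 0) := by
  classical
  set U : Finset (Fin n) := (Finset.univ.filter fun i : Fin n => (i : ℕ) / b = p) ∪
    (Finset.univ.filter fun i : Fin n => (i : ℕ) / b = r) with hU
  have hUc : U.card ≤ 2 * b := by
    have := Finset.card_union_le (Finset.univ.filter fun i : Fin n => (i : ℕ) / b = p)
      (Finset.univ.filter fun i : Fin n => (i : ℕ) / b = r)
    have := card_div_le n b p hb
    have := card_div_le n b r hb
    rw [hU]
    omega
  obtain ⟨f⟩ := Function.Embedding.nonempty_of_card_le (α := Fin (2 ^ e)) (β := ↥(Uᶜ))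
    (by simp only [Fintype.card_fin, Fintype.card_coe, Finset.card_compl]; omega)
  set g : Fin (2 ^ e) → Fin n := fun z => (f z).1 with hg
  have ginj : Function.Injective g := fun a b h => f.injective (Subtype.ext h)
  have gU : ∀ z, (g z : ℕ) / b ≠ p ∧ (g z : ℕ) / b ≠ r := fun z => by
    have := (f z).2
    simpa [hU] using this
  have hq := Complex.isPrimitiveRoot_exp (2 ^ e) (by positivity)
  set q := Complex.exp (2 * Real.pi * I / ((2 ^ e : ℕ) : ℂ))
  obtain ⟨D, hD⟩ := toeplitz_diag hq (by positivity) h1 (fun u => t (u + ((p : ℤ) - r) * b))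
  let O := {i // i ∉ range g}
  let E : Matrix (Fin (2 ^ e)) O ℂ := Matrix.of fun z o =>
    if ((o.1 : ℕ) < n₁ ∧ (o.1 : ℕ) / b = r) ∧ (o.1 : ℕ) % b = z then 1 else 0
  let R : Matrix O (Fin (2 ^ e)) ℂ := Matrix.of fun o z =>
    if (n₁ ≤ (o.1 : ℕ) ∧ (o.1 : ℕ) / b = p) ∧ (o.1 : ℕ) % b = z then 1 else 0
  have uniq : ∀ o o' : O, (o.1 : ℕ) / b = (o'.1 : ℕ) / b → (o.1 : ℕ) % b = (o'.1 : ℕ) % b →
      o = o' := fun o o' a c => Subtype.ext (Fin.ext (by
    rw [← Nat.div_add_mod o.1 b, ← Nat.div_add_mod o'.1 b, a, c]))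
  have hE : IsMatch E := by
    constructor
    · intro z o o' a c
      simp only [E, Matrix.of_apply, ne_eq, ite_eq_right_iff, one_ne_zero, imp_false,
        not_not] at a c
      exact uniq _ _ (by omega) (by omega)
    · intro z z' o a c
      simp only [E, Matrix.of_apply, ne_eq, ite_eq_right_iff, one_ne_zero, imp_false,
        not_not] at a c
      exact Fin.ext (by omega)
  have hR : IsMatch R := by
    constructor
    · intro o z z' a c
      simp only [R, Matrix.of_apply, ne_eq, ite_eq_right_iff, one_ne_zero, imp_false,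
        not_not] at a c
      exact Fin.ext (by omega)
    · intro o o' z a c
      simp only [R, Matrix.of_apply, ne_eq, ite_eq_right_iff, one_ne_zero, imp_false,
        not_not] at a c
      exact uniq _ _ (by omega) (by omega)
  have hER : E * R = 0 := by
    ext z z'
    simp only [E, R, Matrix.mul_apply, Matrix.of_apply, Matrix.zero_apply]
    refine Finset.sum_eq_zero fun o _ => ?_
    split_ifs with a c
    · omega
    all_goals simp
  have hne : ((2 ^ e : ℕ) : ℂ) ≠ 0 := by exact_mod_cast (by positivity : 2 ^ e ≠ 0)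
  have w := dirty2 hE hR hER hne (Fm_mul_inv hq (by positivity))
    (by simpa using Fm_mul_inv hq.inv (by positivity)) (fft2 e hq) (fft2 e hq.inv) D
  refine Word.of_reindex (splitEquiv g ginj) ((w.congr ?_).pad (by omega))
  have sl : ∀ i, splitEquiv g ginj (Sum.inl i : _ ⊕ O) = g i := fun _ => rfl
  have sr : ∀ i : O, splitEquiv g ginj (Sum.inr i : _ ⊕ O) = i.1 := fun _ => rfl
  ext (i | i) (j | j)
  · simp [sl, Matrix.one_apply, (gU i).1, ginj.eq_iff]
  · have : g i ≠ j.1 := fun hh => j.2 ⟨i, hh⟩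
    simp [sl, sr, (gU i).1, this]
  · have : i.1 ≠ g j := fun hh => i.2 ⟨j, hh.symm⟩
    simp [sl, sr, (gU j).2, this]
  · have lt : ∀ o : O, (o.1 : ℕ) % b < 2 ^ e := fun o => by
      have := Nat.mod_lt (o.1 : ℕ) hb; omega
    simp only [fromBlocks_apply₂₂, Matrix.add_apply, submatrix_apply, sr,
      Matrix.one_apply, Subtype.ext_iff, Matrix.of_apply]
    refine congrArg₂ (· + ·) (if_congr Subtype.ext_iff rfl rfl) ?_
    generalize Fm (2 ^ e) q⁻¹ * diagonal D * Fm (2 ^ e) q = G at hD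
    rw [Matrix.mul_apply, Finset.sum_eq_single ⟨_, lt j⟩, Matrix.mul_apply,
      Finset.sum_eq_single ⟨_, lt i⟩]
    · simp only [R, E, Matrix.of_apply, and_true]
      rw [hD _ _ (Nat.mod_lt _ hb) (Nat.mod_lt _ hb)]
      by_cases a : n₁ ≤ (i.1 : ℕ) ∧ (i.1 : ℕ) / b = p
      · by_cases c : (j.1 : ℕ) < n₁ ∧ (j.1 : ℕ) / b = r
        · simp only [a, c, and_self, if_true, one_mul, mul_one]
          congr 1
          have e1 := Nat.div_add_mod i.1 b
          have e2 := Nat.div_add_mod j.1 b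
          rw [a.2] at e1
          rw [c.2] at e2
          zify at e1 e2
          push_cast
          linear_combination e1 - e2
        · simp [c]
      · simp [a]
    · intro z _ hz
      have : ¬ (i.1 : ℕ) % b = z := fun hh => hz (Fin.ext hh.symm)
      simp [R, this]
    · simp
    · intro z _ hz
      have : ¬ (j.1 : ℕ) % b = z := fun hh => hz (Fin.ext hh.symm)
      simp [E, this]
    · simp

lemma toeplitz_shear {n n₁ l : ℕ} (hn : n ≤ 2 ^ l) (t : ℤ → ℂ) :
    Word (144 * (32 * l + 32)) (1 + Matrix.of fun i j : Fin n =>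
      if n₁ ≤ i ∧ (j : ℕ) < n₁ then t ((i : ℤ) - j) else 0) := by
  classical
  have gen : ∀ b : ℕ, 0 < b → n ≤ 12 * b → (∀ p r : ℕ, Word (32 * l + 32)
      (1 + Matrix.of fun i j : Fin n =>
      if (n₁ ≤ i ∧ (i : ℕ) / b = p) ∧ ((j : ℕ) < n₁ ∧ (j : ℕ) / b = r) then t ((i : ℤ) - j)
      else 0)) → Word (144 * (32 * l + 32)) (1 + Matrix.of fun i j : Fin n =>
      if n₁ ≤ i ∧ (j : ℕ) < n₁ then t ((i : ℤ) - j) else 0) := by
    intro b hb hnb h
    have := shear_sum (Finset.range 12 ×ˢ Finset.range 12) _ (fun a _ => h a.1 a.2) (by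
      intro a a'
      ext i k
      simp only [Matrix.mul_apply, Matrix.of_apply, Matrix.zero_apply]
      refine Finset.sum_eq_zero fun o _ => ?_
      split_ifs with a c
      · omega
      all_goals simp)
    refine this.congr ?_
    congr 1
    ext i j
    have lt : ∀ i : Fin n, (i : ℕ) / b < 12 := fun i => by
      rw [Nat.div_lt_iff_lt_mul hb]; omega
    rw [Matrix.sum_apply, Finset.sum_eq_single ((i : ℕ) / b, (j : ℕ) / b)]
    · simp
    · rintro ⟨p, r⟩ _ hne
      simp only [Matrix.of_apply]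
      rw [if_neg]
      rintro ⟨⟨-, rfl⟩, -, rfl⟩
      exact hne rfl
    · intro hh
      exact absurd (by simp [lt]) hh
  by_cases h6 : n < 6
  · refine gen 1 one_pos (by omega) fun p r => (matchShear _ ?_ ?_ ?_).pad (by omega)
    · intro i j j' a c
      simp only [Matrix.of_apply, ne_eq, ite_eq_right_iff, Classical.not_imp, Nat.div_one] at a c
      exact Fin.ext (by omega)
    · intro i j j' a c
      simp only [Matrix.of_apply, ne_eq, ite_eq_right_iff, Classical.not_imp, Nat.div_one] at a c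
      exact Fin.ext (by omega)
    · intro i j j' a c
      simp only [Matrix.of_apply, ne_eq, ite_eq_right_iff, Classical.not_imp, Nat.div_one] at a c
      omega
  · have hb : 0 < n / 6 := by omega
    have h1 : 2 * (n / 6) ≤ 2 ^ Nat.clog 2 (2 * (n / 6)) := Nat.le_pow_clog one_lt_two _
    have h2 := Nat.pow_pred_clog_lt_self one_lt_two (x := 2 * (n / 6)) (by omega)
    have h3 : 0 < Nat.clog 2 (2 * (n / 6)) := Nat.clog_pos one_lt_two (by omega)
    have h4 : Nat.clog 2 (2 * (n / 6)) ≤ l := (Nat.clog_le_iff_le_pow one_lt_two).2 (by omega)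
    generalize Nat.clog 2 (2 * (n / 6)) = e at *
    obtain ⟨e, rfl⟩ : ∃ e', e = e' + 1 := ⟨e - 1, by omega⟩
    rw [Nat.pred_succ] at h2
    refine gen (n / 6) hb (by omega) fun p r =>
      (block_shear hb h1 (by rw [pow_succ]; omega) t p r).pad (by omega)

end Vale.Agent.P344
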