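import Vale.Agent.P344.Frames

namespace Vale.Agent.P344

open Set Matrix Complex

section
variable {ι κ : Type} [Fintype ι] [DecidableEq ι] [Fintype κ] [DecidableEq κ]

def mono (d : ι → ℂ) (π : Equiv.Perm ι) : Matrix ι ι ℂ :=
  Matrix.of fun i j => if π i = j then d i else 0

noncomputable def lay (σ : Equiv.Perm ι) : Matrix ι ι ℂ :=
  Matrix.of fun i j => (if i = j then cc 0 else 0) + (if σ i = j then cc 1 else 0)

omit [Fintype ι] in
lemma mono_one_one : mono (fun _ : ι => (1 : ℂ)) 1 = 1 := by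
  ext i j; by_cases h : i = j <;> simp [mono, Matrix.one_apply, h]

omit [Fintype ι] in
lemma mono_diag (d : ι → ℂ) : mono d 1 = diagonal d := by
  ext i j; by_cases h : i = j <;> simp [mono, Matrix.diagonal_apply, h]

omit [Fintype ι] in
lemma lay_one : lay (1 : Equiv.Perm ι) = 1 := by
  ext i j
  simp only [lay, Matrix.of_apply, Equiv.Perm.coe_one, id_eq, Matrix.one_apply, cc_zero, cc_one]
  split_ifs <;> ring

lemma mono_mul_apply {ν : Type*} (d : ι → ℂ) (π : Equiv.Perm ι) (A : Matrix ι ν ℂ) (i : ι) (j : ν) :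
    (mono d π * A) i j = d i * A (π i) j := by
  simp [mono, Matrix.mul_apply]

omit [Fintype ι] in
lemma mono_transpose (d : ι → ℂ) (π : Equiv.Perm ι) :
    (mono d π)ᵀ = mono (fun i => d (π.symm i)) π.symm := by
  ext i j
  simp only [mono, transpose_apply, Matrix.of_apply, Equiv.symm_apply_eq]
  by_cases h : π j = i
  · subst h; simp
  · rw [if_neg h, if_neg (Ne.symm h)]

omit [Fintype ι] in
lemma lay_transpose {σ : Equiv.Perm ι} (h : ∀ i, σ (σ i) = i) : (lay σ)ᵀ = lay σ := by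
  ext i j
  simp only [lay, transpose_apply, Matrix.of_apply]
  congr 1
  · simp [eq_comm]
  · have : σ j = i ↔ σ i = j := ⟨fun e => by rw [← e, h], fun e => by rw [← e, h]⟩
    simp only [this]

def Letter (A : Matrix ι ι ℂ) : Prop :=
  ∃ (d d' : ι → ℂ) (π π' σ : Equiv.Perm ι), (∀ i, σ (σ i) = i) ∧
    A = mono d π * lay σ * mono d' π'

inductive Word : ℕ → Matrix ι ι ℂ → Prop
  | nil : Word 0 1
  | cons {T : ℕ} {A B : Matrix ι ι ℂ} : Letter A → Word T B → Word (T + 1) (A * B)

lemma Letter.mono (d : ι → ℂ) (π : Equiv.Perm ι) : Letter (mono d π) :=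
  ⟨d, fun _ => 1, π, 1, 1, fun _ => rfl, by rw [lay_one, mono_one_one, mul_one, mul_one]⟩

lemma Letter.one : Letter (1 : Matrix ι ι ℂ) := mono_one_one (ι := ι) ▸ Letter.mono _ _

lemma Letter.word {A : Matrix ι ι ℂ} (h : Letter A) : Word 1 A := by
  simpa using Word.cons h Word.nil

lemma Word.diag (d : ι → ℂ) : Word 1 (diagonal d) := mono_diag d ▸ (Letter.mono d 1).word

lemma Word.mul {T T' : ℕ} {A B : Matrix ι ι ℂ} (h : Word T A) (h' : Word T' B) :
    Word (T + T') (A * B) := by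
  induction h with
  | nil => simpa using h'
  | cons hl _ ih => rw [mul_assoc, Nat.add_right_comm]; exact Word.cons hl ih

lemma Word.one (T : ℕ) : Word T (1 : Matrix ι ι ℂ) := by
  induction T with
  | zero => exact Word.nil
  | succ T ih => simpa using Word.cons Letter.one ih

lemma Word.pad {T T' : ℕ} {A : Matrix ι ι ℂ} (h : Word T A) (hT : T ≤ T') : Word T' A := by
  have := h.mul (Word.one (T' - T))
  rwa [mul_one, Nat.add_sub_cancel' hT] at this

lemma Word.congr {T : ℕ} {A B : Matrix ι ι ℂ} (h : Word T A) (e : A = B) : Word T B := e ▸ h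

lemma Letter.transpose {A : Matrix ι ι ℂ} (h : Letter A) : Letter Aᵀ := by
  obtain ⟨d, d', π, π', σ, hσ, rfl⟩ := h
  exact ⟨_, _, _, _, σ, hσ, by
    rw [transpose_mul, transpose_mul, mono_transpose, mono_transpose, lay_transpose hσ, mul_assoc]⟩

lemma Word.transpose {T : ℕ} {A : Matrix ι ι ℂ} (h : Word T A) : Word T Aᵀ := by
  induction h with
  | nil => simpa using Word.nil
  | cons hl _ ih => rw [transpose_mul]; exact ih.mul hl.transpose.word

omit [Fintype ι] [Fintype κ] in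
lemma mono_submatrix (d : ι → ℂ) (π : Equiv.Perm ι) (e : κ ≃ ι) :
    (mono d π).submatrix e e = mono (fun k => d (e k)) (e.symm.permCongr π) := by
  ext i j; simp [mono, Equiv.symm_apply_eq]

omit [Fintype ι] [Fintype κ] in
lemma lay_submatrix (σ : Equiv.Perm ι) (e : κ ≃ ι) :
    (lay σ).submatrix e e = lay (e.symm.permCongr σ) := by
  ext i j; simp [lay, Equiv.symm_apply_eq]

lemma Letter.reindex {A : Matrix ι ι ℂ} (h : Letter A) (e : κ ≃ ι) : Letter (A.submatrix e e) := by
  obtain ⟨d, d', π, π', σ, hσ, rfl⟩ := h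
  rw [← submatrix_mul_equiv _ _ e e e, ← submatrix_mul_equiv _ _ e e e, mono_submatrix,
    mono_submatrix, lay_submatrix]
  exact ⟨_, _, _, _, e.symm.permCongr σ, fun i => by simp [hσ], rfl⟩

lemma Word.reindex {T : ℕ} {A : Matrix ι ι ℂ} (h : Word T A) (e : κ ≃ ι) :
    Word T (A.submatrix e e) := by
  induction h with
  | nil => simpa using Word.nil
  | cons hl _ ih => rw [← submatrix_mul_equiv _ _ e e e]; exact Word.cons (hl.reindex e) ih

lemma Word.of_reindex {T : ℕ} {A : Matrix ι ι ℂ} (e : κ ≃ ι) (h : Word T (A.submatrix e e)) :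
    Word T A := by
  simpa using h.reindex e.symm

lemma Word.of_reindex2 {T : ℕ} {A : Matrix ι ι ℂ} (e e' : κ ≃ ι)
    (h : Word T (A.submatrix e e')) : Word (T + 1) A := by
  have h1 := Word.cons (Letter.mono (fun _ => 1) (e'.trans e.symm)) h
  refine Word.of_reindex e' (h1.congr ?_)
  ext i j
  simp [mono_mul_apply]

omit [Fintype ι] [Fintype κ] in
lemma mono_sum (d : ι → ℂ) (π : Equiv.Perm ι) (d' : κ → ℂ) (π' : Equiv.Perm κ) :
    fromBlocks (mono d π) 0 0 (mono d' π') = mono (Sum.elim d d') (Equiv.sumCongr π π') := by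
  ext (i | i) (j | j) <;> simp [mono]

omit [Fintype ι] [Fintype κ] in
lemma lay_sum (σ : Equiv.Perm ι) (σ' : Equiv.Perm κ) :
    fromBlocks (lay σ) 0 0 (lay σ') = lay (Equiv.sumCongr σ σ') := by
  ext (i | i) (j | j) <;> simp [lay]

lemma Letter.sum {A : Matrix ι ι ℂ} {B : Matrix κ κ ℂ} (h : Letter A) (h' : Letter B) :
    Letter (fromBlocks A 0 0 B) := by
  obtain ⟨d, d', π, π', σ, hσ, rfl⟩ := h
  obtain ⟨e, e', ρ, ρ', τ, hτ, rfl⟩ := h'
  refine ⟨Sum.elim d e, Sum.elim d' e', Equiv.sumCongr π ρ, Equiv.sumCongr π' ρ',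
    Equiv.sumCongr σ τ, by rintro (i | i) <;> simp [hσ, hτ], ?_⟩
  rw [← mono_sum d π e ρ, ← mono_sum d' π' e' ρ', ← lay_sum, fromBlocks_multiply,
    fromBlocks_multiply]
  simp

lemma Word.sum {T : ℕ} {A : Matrix ι ι ℂ} {B : Matrix κ κ ℂ} (h : Word T A) (h' : Word T B) :
    Word T (fromBlocks A 0 0 B) := by
  induction h generalizing B with
  | nil => cases h'; rw [fromBlocks_one]; exact Word.nil
  | cons hl _ ih =>
    cases h' with
    | cons hl' hw' =>
      refine (Word.cons (hl.sum hl') (ih hw')).congr ?_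
      rw [fromBlocks_multiply]; simp

open Classical in
noncomputable def splitEquiv {α β : Type} (e : α → β) (he : Function.Injective e) :
    α ⊕ {i // i ∉ range e} ≃ β :=
  (Equiv.sumCongr (Equiv.ofInjective e he) (Equiv.refl _)).trans
    (Equiv.sumCompl (· ∈ range e))

@[simp] lemma splitEquiv_inl {α β : Type} (e : α → β) (he : Function.Injective e) (k : α) :
    splitEquiv e he (.inl k) = e k := rfl

@[simp] lemma splitEquiv_inr {α β : Type} (e : α → β) (he : Function.Injective e)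
    (i : {i // i ∉ range e}) : splitEquiv e he (.inr i) = i.1 := rfl

lemma Word.embed {T : ℕ} {G : Matrix κ κ ℂ} (h : Word T G) (e : κ → ι)
    (he : Function.Injective e) {A : Matrix ι ι ℂ} (h1 : ∀ z z', A (e z) (e z') = G z z')
    (h2 : ∀ i j, (i ∉ range e ∨ j ∉ range e) → A i j = if i = j then 1 else 0) : Word T A := by
  classical
  refine Word.of_reindex (splitEquiv e he) ((h.sum (Word.one T)).congr ?_)
  ext (i | i) (j | j)
  · simp [h1]
  · have : e i ≠ j.1 := fun hh => j.2 ⟨i, hh⟩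
    simp [h2 _ _ (Or.inr j.2), this]
  · have : i.1 ≠ e j := fun hh => i.2 ⟨j, hh.symm⟩
    simp [h2 _ _ (Or.inl i.2), this]
  · simp [h2 _ _ (Or.inl i.2), Matrix.one_apply, Subtype.ext_iff]

lemma letterH (a b a' b' : ι → ℂ) :
    Letter (fromBlocks (diagonal fun p => a p * a' p) (diagonal fun p => a p * b' p)
      (diagonal fun p => b p * a' p) (diagonal fun p => -(b p * b' p))) := by
  refine ⟨Sum.elim (fun p => a p * (1 - I)) (fun p => b p * (1 + I)),
    Sum.elim a' (fun p => I * b' p), 1, 1, Equiv.sumComm ι ι, by rintro (i | i) <;> rfl, ?_⟩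
  rw [mono_diag, mono_diag]
  ext (i | i) (j | j) <;>
  · simp only [Matrix.mul_diagonal, Matrix.diagonal_mul, lay, Matrix.of_apply, fromBlocks_apply₁₁,
      fromBlocks_apply₁₂, fromBlocks_apply₂₁, fromBlocks_apply₂₂, Matrix.diagonal_apply,
      Sum.elim_inl, Sum.elim_inr, Equiv.sumComm_apply, Sum.swap_inl, Sum.swap_inr,
      Sum.inl.injEq, Sum.inr.injEq, reduceCtorEq, if_false, cc_zero, cc_one]
    split_ifs with h
    · subst h
      ring_nf
      simp only [I_sq, I_pow_three]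
      ring
    · simp

lemma shearPP (c : ι → ℂ) (hc : ∀ p, c p ≠ 0) :
    Word 3 (fromBlocks 1 0 (diagonal c) 1) := by
  have h1 := letterH (ι := ι) (fun _ => 1) (fun p => 4 / 5 * c p) (fun _ => 3 / 2) (fun _ => 1 / 2)
  have h2 := letterH (ι := ι) (fun _ => 1) (fun _ => 1) (fun _ => 1 / 2) (fun _ => 1)
  have h3 := letterH (ι := ι) (fun _ => 1) (fun _ => 1) (fun _ => 1 / 2)
    (fun p => -5 / 6 * (c p)⁻¹)
  refine (Word.cons h1 (Word.cons h2 h3.word)).congr ?_
  simp only [fromBlocks_multiply, diagonal_mul_diagonal, diagonal_add]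
  rw [← diagonal_one, ← diagonal_zero]
  congr 2 <;> funext p <;> have := hc p <;> field_simp <;> ring

lemma matchShear (N : Matrix ι ι ℂ) (h1 : ∀ i j j', N i j ≠ 0 → N i j' ≠ 0 → j = j')
    (h2 : ∀ i i' j, N i j ≠ 0 → N i' j ≠ 0 → i = i')
    (h3 : ∀ i j k, N i j ≠ 0 → N j k ≠ 0 → False) : Word 3 (1 + N) := by
  classical
  let P := {p : ι × ι // N p.1 p.2 ≠ 0}
  let e : P ⊕ P → ι := Sum.elim (fun p => p.1.2) (fun p => p.1.1)
  have i1 : ∀ p q : P, p.1.2 = q.1.2 ↔ p = q := by
    rintro ⟨⟨a, b⟩, h⟩ ⟨⟨a', b'⟩, h'⟩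
    refine ⟨fun hh => ?_, fun hh => by rw [hh]⟩
    simp only at hh h h'
    subst hh
    obtain rfl := h2 _ _ _ h h'
    rfl
  have i2 : ∀ p q : P, p.1.1 = q.1.1 ↔ p = q := by
    rintro ⟨⟨a, b⟩, h⟩ ⟨⟨a', b'⟩, h'⟩
    refine ⟨fun hh => ?_, fun hh => by rw [hh]⟩
    simp only at hh h h'
    subst hh
    obtain rfl := h1 _ _ _ h h'
    rfl
  have i3 : ∀ p q : P, p.1.2 ≠ q.1.1 := fun p q hh => h3 _ _ _ p.2 (hh ▸ q.2)
  have he : Function.Injective e := by
    rintro (p | p) (q | q) hh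
    · exact congrArg _ ((i1 p q).1 hh)
    · exact absurd hh (i3 p q)
    · exact absurd hh.symm (i3 q p)
    · exact congrArg _ ((i2 p q).1 hh)
  refine (shearPP (ι := P) (fun p => N p.1.1 p.1.2) (fun p => p.2)).embed e he ?_ ?_
  · have z1 : ∀ (p : P) j, N p.1.2 j = 0 := fun p j => by
      by_contra hh; exact h3 _ _ _ p.2 hh
    have z2 : ∀ (p : P) j, N j p.1.1 = 0 := fun p j => by
      by_contra hh; exact h3 _ _ _ hh p.2
    rintro (p | p) (q | q)
    · simp [e, z1, Matrix.one_apply, i1]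
    · simp [e, z1, Matrix.one_apply, i3]
    · simp only [e, Sum.elim_inr, Sum.elim_inl, Matrix.add_apply, fromBlocks_apply₂₁,
        Matrix.one_apply_ne (i3 q p).symm, zero_add, Matrix.diagonal_apply]
      split_ifs with hpq
      · rw [hpq]
      · by_contra hh
        exact hpq ((i1 p q).1 (h1 _ _ _ p.2 hh))
    · simp [e, z2, Matrix.one_apply, i2]
  · intro i j hij
    have : N i j = 0 := by
      by_contra hh
      rcases hij with h | h
      · exact h ⟨.inr ⟨(i, j), hh⟩, rfl⟩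
      · exact h ⟨.inl ⟨(i, j), hh⟩, rfl⟩
    simp [this, Matrix.one_apply]

/-- a matrix with at most one nonzero entry in every row and column -/
def IsMatch {α β : Type*} (N : Matrix α β ℂ) : Prop :=
  (∀ i j j', N i j ≠ 0 → N i j' ≠ 0 → j = j') ∧ ∀ i i' j, N i j ≠ 0 → N i' j ≠ 0 → i = i'

lemma IsMatch.neg {α β : Type*} {N : Matrix α β ℂ} (h : IsMatch N) : IsMatch (-N) :=
  ⟨fun i j j' a b => h.1 i j j' (by simpa using a) (by simpa using b),
    fun i i' j a b => h.2 i i' j (by simpa using a) (by simpa using b)⟩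

lemma IsMatch.lower {N : Matrix κ ι ℂ} (h : IsMatch N) : Word 3 (fromBlocks 1 0 N 1) := by
  refine (matchShear (fromBlocks 0 0 N 0) ?_ ?_ ?_).congr ?_
  · rintro (i | i) (j | j) (j' | j') <;> simp
    exact h.1 i j j'
  · rintro (i | i) (j | j) (j' | j') <;> simp
    exact h.2 i j j'
  · rintro (i | i) (j | j) (j' | j') <;> simp
  · rw [← fromBlocks_one, fromBlocks_add]; simp

lemma IsMatch.upper {N : Matrix ι κ ℂ} (h : IsMatch N) : Word 3 (fromBlocks 1 N 0 1) := by
  have h' : IsMatch Nᵀ := ⟨fun i j j' a b => h.2 j j' i a b, fun i i' j a b => h.1 j i i' a b⟩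
  refine h'.lower.transpose.congr ?_
  rw [fromBlocks_transpose]; simp

lemma dirty {T : ℕ} {E : Matrix ι κ ℂ} {R : Matrix κ ι ℂ} (hE : IsMatch E) (hR : IsMatch R)
    (hER : E * R = 0) {G G' : Matrix ι ι ℂ} (hG : G' * G = 1) (wG : Word T G) (wG' : Word T G') :
    Word (4 * T + 12) (fromBlocks (1 : Matrix ι ι ℂ) 0 0 (1 + R * G * E)) := by
  have conj : ∀ R : Matrix κ ι ℂ, IsMatch R →
      Word (T + 3 + T) (fromBlocks (1 : Matrix ι ι ℂ) 0 (R * G) (1 : Matrix κ κ ℂ)) := by
    intro R hR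
    refine (((wG'.sum (Word.one T)).mul hR.lower).mul (wG.sum (Word.one T))).congr ?_
    simp [fromBlocks_multiply, hG]
  refine ((((hE.neg.upper.mul (conj R hR)).mul hE.upper).mul (conj _ hR.neg)).congr ?_).pad
    (by omega)
  have h1 : E * (R * G) = 0 := by rw [← Matrix.mul_assoc, hER, Matrix.zero_mul]
  have h2 : R * G * E * (R * G) = 0 := by rw [Matrix.mul_assoc (R * G), h1, Matrix.mul_zero]
  simp [fromBlocks_multiply, h1, h2, Matrix.add_mul, add_comm]

lemma shear_sum {α : Type*} (s : Finset α) {T : ℕ} (N : α → Matrix ι ι ℂ)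
    (h : ∀ a ∈ s, Word T (1 + N a)) (h0 : ∀ a b, N a * N b = 0) :
    Word (s.card * T) (1 + ∑ a ∈ s, N a) := by
  classical
  induction s using Finset.induction_on with
  | empty => simpa using Word.nil
  | insert a s ha ih =>
    rw [Finset.card_insert_of_notMem ha, Finset.sum_insert ha]
    refine (((h a (Finset.mem_insert_self _ _)).mul
      (ih fun b hb => h b (Finset.mem_insert_of_mem hb))).congr ?_).pad (by nlinarith)
    simp only [add_mul, mul_add, one_mul, mul_one, Finset.mul_sum, h0, Finset.sum_const_zero]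
    abel

end

end Vale.Agent.P344
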